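import Vale.Agent.P159.XY.Ineq

/-!
# P159: the McBryan-Spencer bound for finite models
-/

namespace Vale.Agent.P159.XY

open MeasureTheory Real Filter
open scoped Topology

variable {ι : Type*} [Fintype ι]

/-- The complexified weight at imaginary or real shift `z • φ`. -/
noncomputable def HamC (J : ι → ι → ℝ) (φ : ι → ℝ) (θ : Tor ι) (z : ℂ) : ℂ :=
  ∑ i, ∑ j, (J i j : ℂ) * ((cs (θ i - θ j) : ℂ) * Complex.cos (((φ i - φ j : ℝ) : ℂ) * z) -
    (sn (θ i - θ j) : ℂ) * Complex.sin (((φ i - φ j : ℝ) : ℂ) * z))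

noncomputable def phase (a c : ι) (θ : Tor ι) : ℂ :=
  (cs (θ a - θ c) : ℂ) + (sn (θ a - θ c) : ℂ) * Complex.I

noncomputable def integrand (J : ι → ι → ℝ) (φ : ι → ℝ) (a c : ι) (z : ℂ) (θ : Tor ι) : ℂ :=
  Complex.exp (HamC J φ θ z) *
    (phase a c θ * Complex.exp (((φ a - φ c : ℝ) : ℂ) * z * Complex.I))

lemma differentiable_F (J : ι → ι → ℝ) (φ : ι → ℝ) (a c : ι) :
    Differentiable ℂ fun z => ∫ θ, integrand J φ a c z θ ∂(μT ι) := by
  intro z₀
  let H' : Tor ι → ℂ → ℂ := fun θ z => ∑ i, ∑ j, (J i j : ℂ) *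
    ((cs (θ i - θ j) : ℂ) * (-Complex.sin (((φ i - φ j : ℝ) : ℂ) * z) * ((φ i - φ j : ℝ) : ℂ)) -
      (sn (θ i - θ j) : ℂ) * (Complex.cos (((φ i - φ j : ℝ) : ℂ) * z) * ((φ i - φ j : ℝ) : ℂ)))
  let E : ℂ → ℂ := fun z => Complex.exp (((φ a - φ c : ℝ) : ℂ) * z * Complex.I)
  let F' : ℂ → Tor ι → ℂ := fun z θ =>
    Complex.exp (HamC J φ θ z) * H' θ z * (phase a c θ * E z) +
      Complex.exp (HamC J φ θ z) * (phase a c θ * (E z * (((φ a - φ c : ℝ) : ℂ) * Complex.I)))
  have hF' : Continuous fun p : ℂ × Tor ι => F' p.1 p.2 := by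
    simp only [F', H', E, HamC, phase]
    fun_prop
  obtain ⟨K, hK⟩ := ((isCompact_closedBall z₀ 1).prod (isCompact_univ (X := Tor ι)))
    |>.exists_bound_of_continuousOn hF'.continuousOn
  have hder : ∀ θ z, HasDerivAt (fun w => integrand J φ a c w θ) (F' z θ) z := by
    intro θ z
    have hH : HasDerivAt (fun w => HamC J φ θ w) (H' θ z) z := by
      refine HasDerivAt.fun_sum fun i _ => HasDerivAt.fun_sum fun j _ => ?_
      have hl : HasDerivAt (fun w : ℂ => ((φ i - φ j : ℝ) : ℂ) * w) ((φ i - φ j : ℝ) : ℂ) z := by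
        simpa using (hasDerivAt_id z).const_mul ((φ i - φ j : ℝ) : ℂ)
      exact ((hl.ccos.const_mul _).sub (hl.csin.const_mul _)).const_mul _
    have hE : HasDerivAt E (E z * (((φ a - φ c : ℝ) : ℂ) * Complex.I)) z := by
      have hl : HasDerivAt (fun w : ℂ => ((φ a - φ c : ℝ) : ℂ) * w * Complex.I)
          (((φ a - φ c : ℝ) : ℂ) * Complex.I) z := by
        simpa using ((hasDerivAt_id z).const_mul ((φ a - φ c : ℝ) : ℂ)).mul_const Complex.I
      exact hl.cexp
    exact hH.cexp.mul (hE.const_mul _)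
  refine (hasDerivAt_integral_of_dominated_loc_of_deriv_le (F := integrand J φ a c) (F' := F')
    (bound := fun _ => K) (Metric.closedBall_mem_nhds z₀ one_pos) ?_ ?_ ?_ ?_ ?_ ?_).2.differentiableAt
  · exact Eventually.of_forall fun z =>
      (by unfold integrand HamC phase; fun_prop : Continuous _).aestronglyMeasurable
  · exact integrable_of_continuous (by unfold integrand HamC phase; fun_prop)
  · exact (hF'.comp (Continuous.prodMk_right z₀)).aestronglyMeasurable
  · filter_upwards with θ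
    intro z hz
    exact hK (z, θ) ⟨hz, Set.mem_univ θ⟩
  · exact integrable_const _
  · filter_upwards with θ
    exact fun z _ => hder θ z

lemma F_real (J : ι → ι → ℝ) (φ : ι → ℝ) (a c : ι) (t : ℝ) :
    ∫ θ, integrand J φ a c (t : ℂ) θ ∂(μT ι) = ∫ θ, integrand J φ a c 0 θ ∂(μT ι) := by
  conv_rhs => rw [← integral_add_const _ (fun i => ((φ i * t : ℝ) : Ang))]
  congr 1
  funext θ
  have hd : ∀ i j, (θ + fun i => ((φ i * t : ℝ) : Ang)) i - (θ + fun i => ((φ i * t : ℝ) : Ang)) j =
      (θ i - θ j) + (((φ i - φ j) * t : ℝ) : Ang) := by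
    intro i j
    rw [Pi.add_apply, Pi.add_apply, add_sub_add_comm, sub_mul, AddCircle.coe_sub]
  simp only [integrand, HamC, phase, hd, cs_add, sn_add, cs_coe, sn_coe, mul_zero, zero_mul,
    Complex.cos_zero, Complex.sin_zero, Complex.exp_zero, mul_one, sub_zero]
  push_cast
  congr 1
  rw [Complex.exp_mul_I]
  linear_combination ((sn (θ a - θ c) : ℂ) * Complex.sin (((φ a : ℂ) - φ c) * t)) * Complex.I_sq

theorem mcBryan {J : ι → ι → ℝ} (hJ : ∀ i j, 0 ≤ J i j) (φ : ι → ℝ) (a c : ι) :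
    Co J a c ≤ Real.exp (-(φ a - φ c) + ∑ i, ∑ j, J i j * (Real.cosh (φ i - φ j) - 1)) := by
  set F : ℂ → ℂ := fun z => ∫ θ, integrand J φ a c z θ ∂(μT ι) with hF
  have hconst : F Complex.I = F 0 := by
    have hfun : F = fun _ => F 0 := by
      refine (Complex.analyticOnNhd_univ_iff_differentiable.mpr
        (differentiable_F J φ a c)).eq_of_frequently_eq (z₀ := (0 : ℂ))
        analyticOnNhd_const ?_
      have ht : Tendsto (fun t : ℝ => (t : ℂ)) (𝓝[≠] 0) (𝓝[≠] 0) := by
        refine tendsto_nhdsWithin_iff.mpr ⟨?_, ?_⟩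
        · simpa using (Complex.continuous_ofReal.tendsto 0).mono_left nhdsWithin_le_nhds
        · filter_upwards [self_mem_nhdsWithin] with t ht using by simpa using ht
      exact ht.frequently (Eventually.of_forall fun t => F_real J φ a c t).frequently
    exact congrFun hfun Complex.I
  have hHam : ∀ θ, Ham J 0 θ = ∑ i, ∑ j, J i j * cs (θ i - θ j) := fun θ => by simp [Ham]
  have hre : (F 0).re = Nf J 0 (CD a c) := by
    have hi : Integrable (integrand J φ a c 0) (μT ι) :=
      integrable_of_continuous (by unfold integrand HamC phase; fun_prop)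
    rw [hF]
    refine (Complex.reCLM.integral_comp_comm hi).symm.trans ?_
    unfold Nf
    congr 1
    funext θ
    have h0 : HamC J φ θ 0 = ((Ham J 0 θ : ℝ) : ℂ) := by
      rw [hHam]; simp [HamC]
    simp [integrand, h0, phase, CD, ← Complex.ofReal_exp]
  have hbound : ‖F Complex.I‖ ≤ Real.exp (-(φ a - φ c) +
      ∑ i, ∑ j, J i j * (Real.cosh (φ i - φ j) - 1)) * Zf J 0 := by
    rw [Zf, ← integral_const_mul]
    refine norm_integral_le_of_norm_le (integrable_of_continuous (by fun_prop))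
      (Eventually.of_forall fun θ => ?_)
    have hph : ‖phase a c θ‖ = 1 := by
      rw [Complex.norm_eq_sqrt_sq_add_sq]
      simp [phase, cs_sq_add_sn_sq]
    have hreH : (HamC J φ θ Complex.I).re ≤
        Ham J 0 θ + ∑ i, ∑ j, J i j * (Real.cosh (φ i - φ j) - 1) := by
      simp only [hHam, HamC, ← Finset.sum_add_distrib, Complex.re_sum]
      refine Finset.sum_le_sum fun i _ => Finset.sum_le_sum fun j _ => ?_
      rw [Complex.cos_mul_I, Complex.sin_mul_I, Complex.re_ofReal_mul, Complex.sub_re,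
        Complex.re_ofReal_mul, Complex.re_ofReal_mul, ← Complex.ofReal_cosh,
        ← Complex.ofReal_sinh, Complex.re_ofReal_mul]
      simp only [Complex.ofReal_re, Complex.I_re, mul_zero, sub_zero]
      nlinarith [mul_nonneg (mul_nonneg (hJ i j) (sub_nonneg.mpr (Real.one_le_cosh (φ i - φ j))))
        (sub_nonneg.mpr ((abs_le.mp (abs_cs_le (θ i - θ j))).2))]
    rw [integrand, norm_mul, norm_mul, hph, one_mul, Complex.norm_exp, Complex.norm_exp,
      ← Real.exp_add, ← Real.exp_add]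
    refine Real.exp_le_exp.mpr ?_
    have : (((φ a - φ c : ℝ) : ℂ) * Complex.I * Complex.I).re = -(φ a - φ c) := by
      rw [mul_assoc, Complex.I_mul_I]; simp
    linarith
  rw [Co, Ex, div_le_iff₀ (Zf_pos J 0), ← hre, ← hconst]
  exact (Complex.re_le_norm _).trans hbound

end Vale.Agent.P159.XY
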