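import Vale.Agent.P159.XY.Lattice
import Vale.Agent.P159.XY.McBryan

/-!
# P159: susceptibility bounds and exponential decay
-/

namespace Vale.Agent.P159.XY

open MeasureTheory Real Filter
open scoped Topology

/-! ### Counting -/

lemma card_nbr {R : ℕ} (i : Site R) :
    (Finset.univ.filter fun j : Site R => IsNbr i.1 j.1).card ≤ 4 := by
  refine (Finset.card_le_card_of_injOn (fun j : Site R => j.1 - i.1)
    (t := ({(1, 0), (-1, 0), (0, 1), (0, -1)} : Finset (ℤ × ℤ))) ?_ ?_).trans Finset.card_le_four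
  · intro j hj
    replace hj : IsNbr i.1 j.1 := (Finset.mem_filter.mp (Finset.mem_coe.mp hj)).2
    unfold IsNbr at hj
    simp only [Finset.coe_insert, Finset.coe_singleton, Set.mem_insert_iff, Set.mem_singleton_iff,
      Prod.ext_iff, Prod.fst_sub, Prod.snd_sub]
    rcases abs_choice (i.1.1 - j.1.1) with h | h <;> rcases abs_choice (i.1.2 - j.1.2) with h' | h' <;>
      rw [h, h'] at hj <;>
      have := abs_nonneg (i.1.1 - j.1.1) <;> have := abs_nonneg (i.1.2 - j.1.2) <;> omega
  · intro j _ k _ h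
    exact Subtype.ext (sub_left_injective h)

lemma sum_nbr_le {R : ℕ} (g : Site R → ℝ) (hg : ∀ i, 0 ≤ g i) :
    ∑ i : Site R, ∑ j : Site R, (if IsNbr i.1 j.1 then g i + g j else 0) ≤
      8 * ∑ i, g i := by
  have h1 : ∑ i : Site R, ∑ j : Site R, (if IsNbr i.1 j.1 then g i else 0) ≤ 4 * ∑ i, g i := by
    rw [Finset.mul_sum]
    refine Finset.sum_le_sum fun i _ => ?_
    rw [← Finset.sum_filter, Finset.sum_const, nsmul_eq_mul]
    exact mul_le_mul_of_nonneg_right (by exact_mod_cast card_nbr i) (hg i)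
  have hsymm : ∀ i j : Site R, IsNbr i.1 j.1 ↔ IsNbr j.1 i.1 := fun i j => by
    unfold IsNbr; rw [abs_sub_comm i.1.1, abs_sub_comm i.1.2]
  have h2 : ∑ i : Site R, ∑ j : Site R, (if IsNbr i.1 j.1 then g j else 0) =
      ∑ i : Site R, ∑ j : Site R, (if IsNbr i.1 j.1 then g i else 0) := by
    rw [Finset.sum_comm]
    refine Finset.sum_congr rfl fun i _ => Finset.sum_congr rfl fun j _ => ?_
    simp only [hsymm j i]
  have h3 : ∀ i j : Site R, (if IsNbr i.1 j.1 then g i + g j else 0) =
      (if IsNbr i.1 j.1 then g i else 0) + (if IsNbr i.1 j.1 then g j else 0) := fun i j => by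
    split <;> simp
  simp only [h3, Finset.sum_add_distrib, h2]
  linarith

lemma nrm_le_of_nbr {i j a : ℤ × ℤ} (h : IsNbr i j) : nrm (j - a) ≤ nrm (i - a) + 1 := by
  unfold IsNbr at h
  have h1 := abs_nonneg (i.1 - j.1)
  have h2 := abs_nonneg (i.2 - j.2)
  have h3 : |i.1 - j.1| ≤ 1 := by omega
  have h4 : |i.2 - j.2| ≤ 1 := by omega
  rw [abs_le] at h3 h4
  simp only [nrm, Prod.fst_sub, Prod.snd_sub]
  omega

lemma card_shell (s : Finset (ℤ × ℤ)) (k : ℕ) (hs : ∀ x ∈ s, nrm x = k) :
    (s.card : ℝ) ≤ 8 * ((k : ℝ) + 1) := by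
  classical
  let I : Finset ℤ := Finset.Icc (-(k : ℤ)) k
  have hsub : s ⊆ (({(k : ℤ), -(k : ℤ)} : Finset ℤ) ×ˢ I) ∪ (I ×ˢ ({(k : ℤ), -(k : ℤ)} : Finset ℤ)) := by
    intro x hx
    have := hs x hx
    simp only [nrm] at this
    simp only [I, Finset.mem_union, Finset.mem_product, Finset.mem_insert, Finset.mem_singleton,
      Finset.mem_Icc]
    omega
  have hI : I.card = 2 * k + 1 := by simp only [I, Int.card_Icc]; omega
  have h2 := (Finset.card_le_card hsub).trans (Finset.card_union_le _ _)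
  rw [Finset.card_product, Finset.card_product, hI] at h2
  have h3 : ({(k : ℤ), -(k : ℤ)} : Finset ℤ).card ≤ 2 := Finset.card_le_two
  have : s.card ≤ 8 * (k + 1) := by nlinarith
  exact_mod_cast this

/-- Radial sums over the box. -/
lemma sum_radial_le {R : ℕ} (a : Site R) (g : ℕ → ℝ) (hg : ∀ k, 0 ≤ g k) :
    ∑ c : Site R, g (nrm (c.1 - a.1)) ≤
      ∑ k ∈ Finset.range (2 * R + 1), 8 * ((k : ℝ) + 1) * g k := by
  classical
  rw [← Finset.sum_fiberwise_of_maps_to (g := fun c : Site R => nrm (c.1 - a.1))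
    (t := Finset.range (2 * R + 1))]
  · refine Finset.sum_le_sum fun k _ => ?_
    rw [Finset.sum_congr rfl (g := fun _ => g k) fun c hc => by rw [(Finset.mem_filter.mp hc).2],
      Finset.sum_const, nsmul_eq_mul]
    refine mul_le_mul_of_nonneg_right ?_ (hg k)
    have := card_shell ((Finset.univ.filter fun c : Site R => nrm (c.1 - a.1) = k).image
      fun c => c.1 - a.1) k (fun x hx => by
        simp only [Finset.mem_image, Finset.mem_filter] at hx
        obtain ⟨c, ⟨_, hc⟩, rfl⟩ := hx
        exact hc)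
    have hinj : Function.Injective fun c : Site R => c.1 - a.1 :=
      fun p q h => Subtype.ext (sub_left_injective h)
    rwa [Finset.card_image_of_injective _ hinj] at this
  · intro c _
    have h1 := mem_box'.mp c.2
    have h2 := mem_box'.mp a.2
    simp only [Finset.mem_range, nrm, Prod.fst_sub, Prod.snd_sub] at h1 h2 ⊢
    omega

/-! ### The power-law bound -/

/-- The exponent. -/
noncomputable def eta (b : ℝ) : ℝ := min 1 (1 / (64 * b)) / 2

lemma eta_pos {b : ℝ} (hb : 0 < b) : 0 < eta b := by unfold eta; positivity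

lemma eta_le {b : ℝ} : eta b ≤ 1 / 2 := by
  unfold eta; linarith [min_le_left (1 : ℝ) (1 / (64 * b))]

/-- Harmonic numbers. -/
noncomputable def Hm (r : ℕ) : ℝ := ∑ k ∈ Finset.range r, 1 / ((k : ℝ) + 1)

lemma log_le_Hm (r : ℕ) : Real.log ((r : ℝ) + 1) ≤ Hm r := by
  induction r with
  | zero => simp [Hm]
  | succ n ih =>
    rw [Hm, Finset.sum_range_succ, ← Hm]
    push_cast
    have h1 : Real.log (((n : ℝ) + 1 + 1) / ((n : ℝ) + 1)) ≤ 1 / ((n : ℝ) + 1) := by
      refine (Real.log_le_sub_one_of_pos (by positivity)).trans (le_of_eq ?_)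
      field_simp
      ring
    rw [Real.log_div (by positivity) (by positivity)] at h1
    linarith

theorem C_le_rpow {b : ℝ} (hb : 0 < b) (r : ℕ) : C b r ≤ ((r : ℝ) + 1) ^ (-eta b) := by
  rw [C_eq hb.le]
  refine ciSup_le fun R => ?_
  by_cases hmem : ((r : ℤ), (0 : ℤ)) ∈ box R
  swap
  · rw [corr, dif_neg (fun h => hmem h.2)]; positivity
  rw [corr_of_mem b (zero_mem_box R) hmem]
  set lam : ℝ := min 1 (1 / (64 * b)) with hlam
  have hlam0 : 0 < lam := by positivity
  have hlam1 : lam ≤ 1 := min_le_left _ _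
  have hlamb : 64 * b * lam ≤ 1 := by
    have := min_le_right (1 : ℝ) (1 / (64 * b))
    rw [← hlam, le_div_iff₀ (by positivity)] at this
    linarith
  let A : ℕ → ℝ := fun k => lam * (Hm r - Hm (min k r))
  let φ : Site R → ℝ := fun p => A (nrm p.1)
  let g : ℕ → ℝ := fun k => if k < r then lam ^ 2 / ((k : ℝ) + 1) ^ 2 else 0
  have hg : ∀ k, 0 ≤ g k := fun k => by simp only [g]; split <;> positivity
  have hstep : ∀ k, Real.cosh (A k - A (k + 1)) - 1 ≤ g k := by
    intro k
    by_cases hk : k < r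
    · have hd : A k - A (k + 1) = lam / ((k : ℝ) + 1) := by
        simp only [A, min_eq_left hk.le, min_eq_left (Nat.succ_le_of_lt hk), Hm,
          Finset.sum_range_succ]
        ring
      simp only [g, if_pos hk, hd]
      have hx : lam / ((k : ℝ) + 1) ≤ 1 :=
        (div_le_one (by positivity)).mpr (hlam1.trans (by simp))
      have hx0 : 0 ≤ lam / ((k : ℝ) + 1) := by positivity
      have hx2 : |(lam / ((k : ℝ) + 1)) ^ 2 / 2| ≤ 1 := by
        rw [abs_of_nonneg (by positivity)]; nlinarith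
      have := (le_abs_self _).trans (Real.abs_exp_sub_one_le hx2)
      rw [abs_of_nonneg (by positivity)] at this
      rw [← div_pow]
      linarith [Real.cosh_le_exp_half_sq (lam / ((k : ℝ) + 1))]
    · simp only [g, if_neg hk, A, min_eq_right (not_lt.mp hk),
        min_eq_right (le_trans (not_lt.mp hk) k.le_succ), sub_self, Real.cosh_zero, le_refl]
  have hedge : ∀ i j : Site R, Jb R b i j * (Real.cosh (φ i - φ j) - 1) ≤
      (b / 2) * (if IsNbr i.1 j.1 then g (nrm i.1) + g (nrm j.1) else 0) := by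
    intro i j
    unfold Jb
    split
    · rename_i hn
      refine mul_le_mul_of_nonneg_left ?_ (by linarith)
      have h1 := nrm_le_of_nbr (a := 0) hn
      have hn' : IsNbr j.1 i.1 := by
        unfold IsNbr at hn ⊢; rw [abs_sub_comm j.1.1, abs_sub_comm j.1.2]; exact hn
      have h2 := nrm_le_of_nbr (a := 0) hn'
      simp only [sub_zero] at h1 h2
      simp only [φ]
      obtain h | h | h : nrm j.1 = nrm i.1 ∨ nrm j.1 = nrm i.1 + 1 ∨ nrm i.1 = nrm j.1 + 1 := by
        omega
      · rw [h, sub_self, Real.cosh_zero, sub_self]; linarith [hg (nrm i.1)]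
      · rw [h]; linarith [hstep (nrm i.1), hg (nrm i.1 + 1)]
      · rw [h, ← Real.cosh_neg, neg_sub]; linarith [hstep (nrm j.1), hg (nrm j.1 + 1)]
    · simp
  have hsum : ∑ i : Site R, g (nrm i.1) ≤ 8 * lam ^ 2 * Hm r := by
    have h := sum_radial_le (⟨(0, 0), zero_mem_box R⟩ : Site R) g hg
    simp only [Prod.mk_zero_zero, sub_zero] at h
    refine h.trans ?_
    rw [Hm, Finset.mul_sum]
    calc ∑ k ∈ Finset.range (2 * R + 1), 8 * ((k : ℝ) + 1) * g k
        ≤ ∑ k ∈ Finset.range (max (2 * R + 1) r), 8 * ((k : ℝ) + 1) * g k :=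
          Finset.sum_le_sum_of_subset_of_nonneg
            (Finset.range_subset_range.mpr (le_max_left _ _))
            fun k _ _ => mul_nonneg (by positivity) (hg k)
      _ = ∑ k ∈ Finset.range r, 8 * ((k : ℝ) + 1) * g k := by
          refine (Finset.sum_subset (Finset.range_subset_range.mpr (le_max_right _ _))
            fun k _ hk => ?_).symm
          simp only [Finset.mem_range] at hk
          simp [g, hk]
      _ = _ := by
          refine Finset.sum_congr rfl fun k hk => ?_
          simp only [g, if_pos (Finset.mem_range.mp hk)]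
          field_simp
  have hE : ∑ i, ∑ j, Jb R b i j * (Real.cosh (φ i - φ j) - 1) ≤ 32 * b * lam ^ 2 * Hm r := by
    calc ∑ i, ∑ j, Jb R b i j * (Real.cosh (φ i - φ j) - 1)
        ≤ ∑ i : Site R, ∑ j : Site R,
            (b / 2) * (if IsNbr i.1 j.1 then g (nrm i.1) + g (nrm j.1) else 0) :=
          Finset.sum_le_sum fun i _ => Finset.sum_le_sum fun j _ => hedge i j
      _ ≤ (b / 2) * (8 * ∑ i : Site R, g (nrm i.1)) := by
          simp only [← Finset.mul_sum]
          exact mul_le_mul_of_nonneg_left (sum_nbr_le _ fun i => hg _) (by linarith)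
      _ ≤ _ := by nlinarith [mul_le_mul_of_nonneg_left hsum hb.le]
  refine (mcBryan (Jb_nonneg hb.le) φ _ _).trans ?_
  rw [Real.rpow_def_of_pos (by positivity)]
  refine Real.exp_le_exp.mpr ?_
  have h0 : φ ⟨(0, 0), zero_mem_box R⟩ = lam * Hm r := by simp [φ, A, nrm, Hm]
  have h1 : φ ⟨((r : ℤ), 0), hmem⟩ = 0 := by simp [φ, A, nrm]
  rw [h0, h1, sub_zero]
  have hH : 0 ≤ Hm r := Finset.sum_nonneg fun k _ => by positivity
  have hb2 : 32 * b * lam ^ 2 * Hm r ≤ lam / 2 * Hm r :=
    mul_le_mul_of_nonneg_right (by nlinarith) hH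
  have hl := mul_le_mul_of_nonneg_left (log_le_Hm r) (half_pos hlam0).le
  unfold eta
  rw [← hlam]
  linarith

/-- The bound on the susceptibility. -/
noncomputable def Kb (b : ℝ) : ℝ := 16 * (1 + 2 / m b) ^ (2 - eta b / 4)

lemma Gi_le_mixed {b : ℝ} (hb : 0 < b) (x : ℤ × ℤ) :
    Gi b x ≤ ((nrm x : ℝ) + 1) ^ (-(eta b / 4)) * Real.exp (-(m b / 2)) ^ nrm x := by
  have h1 : Gi b x ^ 2 ≤ ((nrm x : ℝ) + 1) ^ (-eta b) := by
    refine (Gi_sq_le hb.le x).trans ((C_le_rpow hb _).trans ?_)
    refine Real.rpow_le_rpow_of_nonpos (by positivity) ?_ (by linarith [eta_pos hb])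
    push_cast
    have : (0 : ℝ) ≤ nrm x := Nat.cast_nonneg _
    linarith
  have h1' : Gi b x ≤ ((nrm x : ℝ) + 1) ^ (-eta b / 2) := by
    refine le_of_pow_le_pow_left₀ two_ne_zero (by positivity) (h1.trans (le_of_eq ?_))
    rw [← Real.rpow_natCast _ 2, ← Real.rpow_mul (by positivity)]
    norm_num
  have h2 := Gi_le_exp hb x
  refine le_of_pow_le_pow_left₀ two_ne_zero (by positivity) ?_
  calc Gi b x ^ 2 ≤ ((nrm x : ℝ) + 1) ^ (-eta b / 2) * Real.exp (-(m b * nrm x)) := by
        rw [sq]; exact mul_le_mul h1' h2 (Gi_nonneg hb.le x) (by positivity)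
    _ = _ := by
        rw [mul_pow, ← Real.rpow_natCast _ 2, ← Real.rpow_mul (by positivity), ← Real.exp_nat_mul,
          ← Real.exp_nat_mul]
        push_cast
        congr 2 <;> ring

theorem chi_le {b : ℝ} (hb : 0 < b) (hm : 0 < m b) (R : ℕ) (a : Site R) :
    ∑ c : Site R, Co (Jb R b) a c ≤ Kb b := by
  set e := eta b / 4 with he
  have he0 : 0 < e := by have := eta_pos hb; positivity
  have he1 : e ≤ 1 := by have := eta_le (b := b); linarith
  set q := Real.exp (-(m b / 2)) with hq
  have hq0 : 0 < q := Real.exp_pos _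
  have hq1 : q < 1 := by rw [hq, Real.exp_lt_one_iff]; linarith
  set N := 1 / (1 - q) with hN
  have hN0 : 0 < N := one_div_pos.mpr (by linarith)
  have hNle : N ≤ 1 + 2 / m b := by
    have h1 : 1 + m b / 2 ≤ Real.exp (m b / 2) := by linarith [Real.add_one_le_exp (m b / 2)]
    have h2 : q * Real.exp (m b / 2) = 1 := by rw [hq, ← Real.exp_add]; simp
    have h3 : q * (1 + m b / 2) ≤ 1 := (mul_le_mul_of_nonneg_left h1 hq0.le).trans_eq h2
    rw [hN, show 1 + 2 / m b = (m b + 2) / m b by field_simp]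
    rw [div_le_div_iff₀ (by linarith) hm]
    linarith
  calc ∑ c : Site R, Co (Jb R b) a c
      ≤ ∑ c : Site R, ((nrm (c.1 - a.1) : ℝ) + 1) ^ (-e) * q ^ nrm (c.1 - a.1) := by
        refine Finset.sum_le_sum fun c _ => ?_
        rw [← corr_of_mem b a.2 c.2]
        exact (corr_le_Gi R hb.le _ _).trans (Gi_le_mixed hb _)
    _ ≤ ∑ k ∈ Finset.range (2 * R + 1), 8 * ((k : ℝ) + 1) * (((k : ℝ) + 1) ^ (-e) * q ^ k) :=
        sum_radial_le a (fun k => ((k : ℝ) + 1) ^ (-e) * q ^ k) fun k => by positivity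
    _ ≤ ∑ k ∈ Finset.range (2 * R + 1),
          8 * (N ^ (1 - e) * q ^ k + N ^ (-e) * ((k : ℝ) * q ^ k + q ^ k)) := by
        refine Finset.sum_le_sum fun k _ => ?_
        have hk : ((k : ℝ) + 1) * ((k : ℝ) + 1) ^ (-e) ≤
            N ^ (1 - e) + N ^ (-e) * ((k : ℝ) + 1) := by
          rcases le_total ((k : ℝ) + 1) N with h | h
          · have h1 : ((k : ℝ) + 1) * ((k : ℝ) + 1) ^ (-e) = ((k : ℝ) + 1) ^ (1 - e) := by
              rw [sub_eq_add_neg, Real.rpow_add (by positivity), Real.rpow_one]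
            rw [h1]
            exact le_add_of_le_of_nonneg
              (Real.rpow_le_rpow (by positivity) h (by linarith)) (by positivity)
          · refine le_add_of_nonneg_of_le (by positivity) ?_
            rw [mul_comm (N ^ (-e))]
            exact mul_le_mul_of_nonneg_left
              (Real.rpow_le_rpow_of_nonpos hN0 h (by linarith)) (by positivity)
        have := mul_le_mul_of_nonneg_right hk (pow_nonneg hq0.le k)
        nlinarith
    _ ≤ 8 * (N ^ (1 - e) * N + N ^ (-e) * (q / (1 - q) ^ 2 + N)) := by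
        rw [← Finset.mul_sum, Finset.sum_add_distrib, ← Finset.mul_sum, ← Finset.mul_sum,
          Finset.sum_add_distrib]
        have hgeo : ∑ k ∈ Finset.range (2 * R + 1), q ^ k ≤ N := by
          rw [hN, one_div]
          exact sum_le_hasSum _ (fun k _ => pow_nonneg hq0.le k)
            (hasSum_geometric_of_lt_one hq0.le hq1)
        have hcg : ∑ k ∈ Finset.range (2 * R + 1), (k : ℝ) * q ^ k ≤ q / (1 - q) ^ 2 :=
          sum_le_hasSum _ (fun k _ => by positivity)
            (hasSum_coe_mul_geometric_of_norm_lt_one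
              (by rwa [Real.norm_eq_abs, abs_of_pos hq0]))
        gcongr
    _ = 16 * N ^ (2 - e) := by
        have h1 : q / (1 - q) ^ 2 + N = N ^ 2 := by
          have : (1 - q) ≠ 0 := by linarith
          rw [hN]; field_simp; ring
        rw [h1, ← Real.rpow_natCast N 2, ← Real.rpow_add hN0]
        nth_rewrite 2 [← Real.rpow_one N]
        rw [← Real.rpow_add hN0]
        push_cast
        ring_nf
    _ ≤ Kb b := by
        unfold Kb
        gcongr
        linarith

/-! ### Bootstrap in the temperature -/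

lemma continuous_Co_Jb (R : ℕ) (a c : Site R) : Continuous fun b => Co (Jb R b) a c := by
  have h : ∀ b, Jb R b = fun i j => (fun _ _ => (0 : ℝ)) i j + b * Jb R 1 i j := by
    intro b; funext i j; unfold Jb; split <;> ring
  rw [show (fun b => Co (Jb R b) a c) = fun b =>
    Co (fun i j => (fun _ _ => (0 : ℝ)) i j + b * Jb R 1 i j) a c from
      funext fun b => congrArg (fun J => Co J a c) (h b)]
  exact continuous_iff_continuousAt.mpr fun b =>
    (hasDerivAt_Ex (fun _ _ => (0 : ℝ)) (Jb R 1) 0 (continuous_CD a c) b).continuousAt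

theorem chi_step {R : ℕ} {b b' F : ℝ} (hb : 0 ≤ b) (hle : b ≤ b')
    (hF : ∀ a : Site R, ∑ c, Co (Jb R b') a c ≤ F) (a : Site R) :
    ∑ c, Co (Jb R b') a c - ∑ c, Co (Jb R b) a c ≤ 2 * (b' - b) * F ^ 2 := by
  set G := Co (Jb R b') with hG
  have hG0 : ∀ i j, 0 ≤ G i j := Co_nonneg (Jb_nonneg (hb.trans hle))
  have hF0 : 0 ≤ F := (Finset.sum_nonneg fun c _ => hG0 a c).trans (hF a)
  have hD : ∀ i j : Site R, Jb R b i j ≤ Jb R b' i j := fun i j => by
    unfold Jb; split <;> linarith
  rw [← Finset.sum_sub_distrib]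
  calc ∑ c, (G a c - Co (Jb R b) a c)
      ≤ ∑ c, ∑ i, ∑ j, (Jb R b' i j - Jb R b i j) * ((G a i * G c j + G a j * G c i) / 2) :=
        Finset.sum_le_sum fun c _ => Co_compare (Jb_nonneg hb) hD a c
    _ = ∑ i, ∑ j, (Jb R b' i j - Jb R b i j) *
          ((G a i * ∑ c, G j c + G a j * ∑ c, G i c) / 2) := by
        rw [Finset.sum_comm]
        refine Finset.sum_congr rfl fun i _ => ?_
        rw [Finset.sum_comm]
        refine Finset.sum_congr rfl fun j _ => ?_
        rw [← Finset.mul_sum, ← Finset.sum_div, Finset.sum_add_distrib, ← Finset.mul_sum,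
          ← Finset.mul_sum]
        have e : ∀ k : Site R, ∑ c, G c k = ∑ c, G k c := fun k =>
          Finset.sum_congr rfl fun c _ => Co_comm _ c k
        rw [e j, e i]
    _ ≤ ∑ i : Site R, ∑ j : Site R,
          (b' - b) / 4 * F * (if IsNbr i.1 j.1 then G a i + G a j else 0) := by
        refine Finset.sum_le_sum fun i _ => Finset.sum_le_sum fun j _ => ?_
        unfold Jb
        split
        · have h1 := mul_le_mul_of_nonneg_left (hF j) (hG0 a i)
          have h2 := mul_le_mul_of_nonneg_left (hF i) (hG0 a j)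
          have hd : 0 ≤ b' - b := sub_nonneg.mpr hle
          nlinarith [mul_le_mul_of_nonneg_left (add_le_add h1 h2) hd]
        · simp
    _ ≤ (b' - b) / 4 * F * (8 * ∑ i, G a i) := by
        simp only [← Finset.mul_sum]
        exact mul_le_mul_of_nonneg_left (sum_nbr_le _ fun i => hG0 a i)
          (mul_nonneg (by linarith) hF0)
    _ ≤ _ := by
        have := mul_le_mul_of_nonneg_left (hF a) (mul_nonneg (sub_nonneg.mpr hle) hF0)
        nlinarith

theorem chi_boot {R : ℕ} {b b' K : ℝ} (hb : 0 ≤ b) (hle : b ≤ b') (hK : 0 < K)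
    (hchi : ∀ a : Site R, ∑ c, Co (Jb R b) a c ≤ K) (hsmall : 8 * (b' - b) * K < 1)
    (a : Site R) : ∑ c, Co (Jb R b') a c ≤ 2 * K := by
  have : Nonempty (Site R) := ⟨a⟩
  set F : ℝ → ℝ := fun t => Finset.univ.sup' Finset.univ_nonempty
    (fun a : Site R => ∑ c, Co (Jb R t) a c) with hFd
  have hFc : Continuous F :=
    Continuous.finset_sup'_apply Finset.univ_nonempty fun a _ =>
      continuous_finsetSum _ fun c _ => continuous_Co_Jb R a c
  have hle' : ∀ t (a : Site R), ∑ c, Co (Jb R t) a c ≤ F t := fun t a =>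
    Finset.le_sup' (fun a : Site R => ∑ c, Co (Jb R t) a c) (Finset.mem_univ a)
  by_contra hcon
  push Not at hcon
  have h1 : F b ≤ K := Finset.sup'_le _ _ fun a _ => hchi a
  have h2 : 2 * K ≤ F b' := hcon.le.trans (hle' b' a)
  obtain ⟨t, ht, htF⟩ := intermediate_value_Icc hle hFc.continuousOn
    (show 2 * K ∈ Set.Icc (F b) (F b') from ⟨by linarith, h2⟩)
  obtain ⟨a', -, ha'⟩ := Finset.exists_mem_eq_sup' Finset.univ_nonempty
    (fun a : Site R => ∑ c, Co (Jb R t) a c)
  have hs := chi_step hb ht.1 (hle' t) a'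
  rw [← ha'] at hs
  change F t - _ ≤ _ at hs
  rw [htF] at hs
  have := hchi a'
  have h3 : (t - b) * K ≤ (b' - b) * K := mul_le_mul_of_nonneg_right (by linarith [ht.2]) hK.le
  nlinarith

theorem decay_step {R : ℕ} {b K : ℝ} {n T L : ℕ} (hb : 0 ≤ b) (hT : 0 < T)
    (hT8 : 8 * b * K ≤ T) {G : Site R → Site R → ℝ} (hG0 : ∀ i j, 0 ≤ G i j)
    (hGc : ∀ i j, G i j = G j i) {a c : Site R} (d : Site R → ℕ)
    (hd : ∀ i j : Site R, IsNbr i.1 j.1 → d j ≤ d i + 1)
    (far : ∀ i : Site R, d i ≤ T + 1 → G i c ≤ (1 / 2) ^ n) (hL : L < T)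
    (hsL : ∑ i : Site R, (if d i = L ∨ d i = L + 1 then G a i else 0) ≤ 2 * K / T) :
    ∑ i : Site R, ∑ j : Site R,
        (Jb R b i j - (if (d i ≤ L ↔ d j ≤ L) then Jb R b i j else 0)) *
          ((G a i * G c j + G a j * G c i) / 2) ≤ (1 / 2) ^ (n + 1) := by
  set M : ℝ := (1 / 2) ^ n with hM
  have hM0 : 0 ≤ M := by positivity
  let g : Site R → ℝ := fun i => if d i = L ∨ d i = L + 1 then G a i else 0
  have hg : ∀ i, 0 ≤ g i := fun i => by simp only [g]; split <;> simp [hG0]
  have hsum : b * ∑ i, g i ≤ 1 / 4 := by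
    have hTR : (0 : ℝ) < T := by exact_mod_cast hT
    refine (mul_le_mul_of_nonneg_left hsL hb).trans ?_
    rw [mul_div_assoc', div_le_iff₀ hTR]
    linarith
  have hterm : ∀ i j : Site R,
      (Jb R b i j - (if (d i ≤ L ↔ d j ≤ L) then Jb R b i j else 0)) *
        ((G a i * G c j + G a j * G c i) / 2) ≤
      b / 4 * M * (if IsNbr i.1 j.1 then g i + g j else 0) := by
    intro i j
    by_cases hS : (d i ≤ L ↔ d j ≤ L)
    · rw [if_pos hS, sub_self, zero_mul]
      refine mul_nonneg (mul_nonneg (by linarith) hM0) ?_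
      split
      · exact add_nonneg (hg i) (hg j)
      · exact le_rfl
    · rw [if_neg hS, sub_zero, Jb]
      by_cases hn : IsNbr i.1 j.1
      · rw [if_pos hn, if_pos hn]
        have e1 := hd i j hn
        have hn' : IsNbr j.1 i.1 := by
          unfold IsNbr at hn ⊢; rw [abs_sub_comm j.1.1, abs_sub_comm j.1.2]; exact hn
        have e2 := hd j i hn'
        have hsh : (d i = L ∨ d i = L + 1) ∧ (d j = L ∨ d j = L + 1) := by
          by_cases hi : d i ≤ L
          · have : ¬ d j ≤ L := fun h => hS (iff_of_true hi h)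
            omega
          · have : d j ≤ L := by
              by_contra h; exact hS (iff_of_false hi h)
            omega
        have fi : G c i ≤ M := hGc c i ▸ far i (by omega)
        have fj : G c j ≤ M := hGc c j ▸ far j (by omega)
        simp only [g, if_pos hsh.1, if_pos hsh.2]
        have g1 := mul_le_mul_of_nonneg_left fj (hG0 a i)
        have g2 := mul_le_mul_of_nonneg_left fi (hG0 a j)
        have := mul_le_mul_of_nonneg_left (add_le_add g1 g2) (show 0 ≤ b / 4 by linarith)
        linarith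
      · simp [if_neg hn]
  refine (Finset.sum_le_sum fun i _ => Finset.sum_le_sum fun j _ => hterm i j).trans ?_
  simp only [← Finset.mul_sum]
  refine (mul_le_mul_of_nonneg_left (sum_nbr_le g hg) (by positivity)).trans ?_
  have := mul_le_mul_of_nonneg_left hsum hM0
  rw [pow_succ, ← hM]
  linarith

theorem decay_of_chi {b K : ℝ} (hb : 0 ≤ b) {T : ℕ} (hT : 0 < T) (hT8 : 8 * b * K ≤ T) {R : ℕ}
    (hchi : ∀ a : Site R, ∑ c, Co (Jb R b) a c ≤ K) (n : ℕ) :
    ∀ a c : Site R, n * (T + 1) ≤ nrm (c.1 - a.1) → Co (Jb R b) a c ≤ (1 / 2) ^ n := by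
  induction n with
  | zero => intro a c _; simpa using Co_le_one _ a c
  | succ n ih =>
    intro a c hdist
    set G := Co (Jb R b) with hG
    have hG0 : ∀ i j, 0 ≤ G i j := Co_nonneg (Jb_nonneg hb)
    let sh : ℕ → Site R → Prop := fun L i => nrm (i.1 - a.1) = L ∨ nrm (i.1 - a.1) = L + 1
    let s : ℕ → ℝ := fun L => ∑ i : Site R, if sh L i then G a i else 0
    have hsum : ∑ L ∈ Finset.range T, s L ≤ ∑ _L ∈ Finset.range T, 2 * K / T := by
      simp only [Finset.sum_const, Finset.card_range, nsmul_eq_mul]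
      rw [mul_div_cancel₀ _ (Nat.cast_ne_zero.mpr hT.ne')]
      simp only [s]
      rw [Finset.sum_comm]
      calc ∑ i : Site R, ∑ L ∈ Finset.range T, (if sh L i then G a i else 0)
          ≤ ∑ i : Site R, 2 * G a i := by
            refine Finset.sum_le_sum fun i _ => ?_
            rw [← Finset.sum_filter, Finset.sum_const, nsmul_eq_mul]
            refine mul_le_mul_of_nonneg_right ?_ (hG0 a i)
            have : ((Finset.range T).filter fun L => sh L i) ⊆
                {nrm (i.1 - a.1), nrm (i.1 - a.1) - 1} := by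
              intro L hL
              have hsh := (Finset.mem_filter.mp hL).2
              simp only [sh] at hsh
              simp only [Finset.mem_insert, Finset.mem_singleton]
              omega
            exact_mod_cast (Finset.card_le_card this).trans Finset.card_le_two
        _ ≤ 2 * K := by
            rw [← Finset.mul_sum]
            linarith [hchi a]
    obtain ⟨L, hL, hsL⟩ :=
      Finset.exists_le_of_sum_le (Finset.nonempty_range_iff.mpr hT.ne') hsum
    rw [Finset.mem_range] at hL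
    let S : Site R → Prop := fun i => nrm (i.1 - a.1) ≤ L
    have ha : S a := by simp [S, nrm]
    have hc : ¬ S c := by
      simp only [S, not_le]
      refine lt_of_lt_of_le ?_ hdist
      rw [Nat.succ_mul]; omega
    let J0 : Site R → Site R → ℝ := fun i j => if (S i ↔ S j) then Jb R b i j else 0
    have hJ0 : ∀ i j, 0 ≤ J0 i j := fun i j => by
      simp only [J0]; split <;> simp [Jb_nonneg hb]
    have hJ0le : ∀ i j, J0 i j ≤ Jb R b i j := fun i j => by
      simp only [J0]; split <;> simp [Jb_nonneg hb]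
    have hzero : Co J0 a c = 0 := by
      let v : Tor (Site R) := fun i => if S i then ((π : ℝ) : Ang) else 0
      have hinv : ∀ θ : Tor (Site R), Ham J0 0 (θ + v) = Ham J0 0 θ := by
        intro θ
        simp only [Ham, Pi.zero_apply, zero_mul, Pi.add_apply]
        congr 1
        refine Finset.sum_congr rfl fun i _ => Finset.sum_congr rfl fun j _ => ?_
        simp only [J0]
        by_cases h : (S i ↔ S j)
        · have : v i = v j := by simp only [v, h]
          rw [this, add_sub_add_right_eq_sub]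
        · simp [h]
      have : Co J0 a c = - Co J0 a c := by
        conv_lhs => rw [Co, Ex, Nf, ← integral_add_const _ v]
        rw [Co, Ex, Nf, ← neg_div, ← integral_neg]
        congr 1
        congr 1
        funext θ
        simp only [hinv, CD, Pi.add_apply, v, if_pos ha, if_neg hc, add_zero, add_sub_right_comm,
          cs_add_pi, mul_neg]
      linarith
    have h1 := Co_compare hJ0 hJ0le a c
    rw [hzero, sub_zero] at h1
    refine h1.trans ?_
    refine decay_step hb hT hT8 hG0 (Co_comm _) (fun i => nrm (i.1 - a.1)) (fun i j h => ?_)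
      (fun i hi => ?_) hL hsL
    · exact nrm_le_of_nbr h
    · refine ih i c ?_
      rw [Nat.succ_mul] at hdist
      simp only [nrm, Prod.fst_sub, Prod.snd_sub] at hi hdist ⊢
      omega

theorem m_pos_of_chi {b K : ℝ} (hb : 0 < b)
    (hchi : ∀ R (a : Site R), ∑ c, Co (Jb R b) a c ≤ K) : 0 < m b := by
  set T : ℕ := ⌈8 * b * K⌉₊ + 1 with hT
  have hT8 : 8 * b * K ≤ T := (Nat.le_ceil _).trans (by simp [hT])
  have hC : ∀ n : ℕ, C b (n * (T + 1)) ≤ (1 / 2) ^ n := by
    intro n
    rw [C_eq hb.le]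
    refine ciSup_le fun R => ?_
    by_cases hmem : (((n * (T + 1) : ℕ) : ℤ), (0 : ℤ)) ∈ box R
    · rw [corr_of_mem b (zero_mem_box R) hmem]
      refine decay_of_chi (T := T) hb.le (Nat.succ_pos _) hT8 (hchi R) n _ _ (le_of_eq ?_)
      simp only [nrm, Prod.fst_sub, Prod.snd_sub, sub_zero, Int.natAbs_natCast, Int.natAbs_zero,
        max_eq_left (Nat.zero_le _)]
    · rw [corr, dif_neg (fun h => hmem h.2)]; positivity
  refine lt_of_lt_of_le
    (show 0 < Real.log 2 / ((T : ℝ) + 1) from div_pos (Real.log_pos one_lt_two) (by positivity)) ?_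
  have hsub : Tendsto (fun n : ℕ => n * (T + 1)) atTop atTop :=
    tendsto_atTop_mono (fun n => Nat.le_mul_of_pos_right n (Nat.succ_pos T)) tendsto_id
  refine ge_of_tendsto ((tendsto_m hb).comp hsub) ?_
  filter_upwards [eventually_gt_atTop 0] with n hn
  have h2 := Real.log_le_log (C_pos hb _) (hC n)
  rw [Real.log_pow, one_div, Real.log_inv] at h2
  simp only [Function.comp_apply]
  push_cast
  have hnT : (0 : ℝ) < (n : ℝ) * ((T : ℝ) + 1) := by positivity
  rw [neg_mul, one_div_mul_eq_div, ← neg_div, div_le_div_iff₀ (by positivity) hnT]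
  have := mul_le_mul_of_nonneg_right h2 (show (0 : ℝ) ≤ (T : ℝ) + 1 by positivity)
  linarith

end Vale.Agent.P159.XY
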