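import Mathlib

/-!
# P159: the nearest-neighbour XY model on boxes in the square lattice
-/

namespace Vale.Agent.P159

open MeasureTheory Filter

instance instFactTwoPi : Fact (0 < 2 * Real.pi) := ⟨by positivity⟩

/-- The box `[-R, R]² ∩ ℤ²`. -/
noncomputable def box (R : ℕ) : Finset (ℤ × ℤ) := Finset.Icc (-(R : ℤ)) R ×ˢ Finset.Icc (-(R : ℤ)) R

abbrev Site (R : ℕ) : Type := {x : ℤ × ℤ // x ∈ box R}

/-- Euclidean distance one in `ℤ²`. -/
def IsNbr (x y : ℤ × ℤ) : Prop := |x.1 - y.1| + |x.2 - y.2| = 1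

noncomputable instance instDecidableIsNbr (x y : ℤ × ℤ) : Decidable (IsNbr x y) := by unfold IsNbr; infer_instance

/-- Configurations: an angle in `ℝ / 2πℤ` at each site. -/
abbrev Config (R : ℕ) : Type := Site R → AddCircle (2 * Real.pi)

/-- `∑ cos (θ x - θ y)` over unordered nearest-neighbour pairs (half the ordered sum). -/
noncomputable def edgeEnergy (R : ℕ) (θ : Config R) : ℝ :=
  (1 / 2) * ∑ x : Site R, ∑ y : Site R,
    if IsNbr x.1 y.1 then Real.Angle.cos (θ x - θ y) else 0

/-- The product of the uniform probability measures `dθ_x / 2π`. -/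
noncomputable def uniform (R : ℕ) : Measure (Config R) :=
  Measure.pi fun _ => AddCircle.haarAddCircle

/-- `E_{R,b} cos (θ x - θ y)`. -/
noncomputable def corrBox (R : ℕ) (b : ℝ) (x y : Site R) : ℝ :=
  (∫ θ, Real.exp (b * edgeEnergy R θ) * Real.Angle.cos (θ x - θ y) ∂uniform R) /
    ∫ θ, Real.exp (b * edgeEnergy R θ) ∂uniform R

/-- The finite volume correlation, zero if a point lies outside the box. -/
noncomputable def corr (R : ℕ) (b : ℝ) (x y : ℤ × ℤ) : ℝ :=
  if h : x ∈ box R ∧ y ∈ box R then corrBox R b ⟨x, h.1⟩ ⟨y, h.2⟩ else 0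

/-- `C_b(r)`. -/
noncomputable def C (b : ℝ) (r : ℕ) : ℝ :=
  limUnder atTop fun R => corr R b (0, 0) ((r : ℤ), 0)

/-- `m(b)`. -/
noncomputable def m (b : ℝ) : ℝ :=
  limUnder atTop fun r : ℕ => -(1 / (r : ℝ)) * Real.log (C b r)

/-- The set whose infimum is the critical point. -/
def massless : Set ℝ := {b | 0 < b ∧ m b = 0}

/-- `b_c`. -/
noncomputable def bc : ℝ := sInf massless

/-- The correlation length. -/
noncomputable def ξ (b : ℝ) : ℝ := 1 / m b

end Vale.Agent.P159
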