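import Vale.Agent.P159.XY.Model

/-!
# P159: correlation inequalities for finite XY models
-/

namespace Vale.Agent.P159.XY

open MeasureTheory Real Filter
open scoped Topology

variable {ι : Type*} [Fintype ι]

noncomputable def X (i : ι) (θ : Tor ι) : ℝ := cs (θ i)
noncomputable def Y (i : ι) (θ : Tor ι) : ℝ := sn (θ i)
noncomputable def XX (i j : ι) (θ : Tor ι) : ℝ := cs (θ i) * cs (θ j)
noncomputable def YY (i j : ι) (θ : Tor ι) : ℝ := sn (θ i) * sn (θ j)
noncomputable def CD (i j : ι) (θ : Tor ι) : ℝ := cs (θ i - θ j)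

omit [Fintype ι] in
@[fun_prop] lemma continuous_X (i : ι) : Continuous (X i) := by unfold X; fun_prop
omit [Fintype ι] in
@[fun_prop] lemma continuous_Y (i : ι) : Continuous (Y i) := by unfold Y; fun_prop
omit [Fintype ι] in
@[fun_prop] lemma continuous_XX (i j : ι) : Continuous (XX i j) := by unfold XX; fun_prop
omit [Fintype ι] in
@[fun_prop] lemma continuous_YY (i j : ι) : Continuous (YY i j) := by unfold YY; fun_prop
omit [Fintype ι] in
@[fun_prop] lemma continuous_CD (i j : ι) : Continuous (CD i j) := by unfold CD; fun_prop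

lemma mono2 {κ : Type*} [Fintype κ] {f g : Tor κ → ℝ} (hf : Mono f) (hg : Mono g) :
    Mono (fun x => f x * g x) := isPos_mono.mul f g hf hg

lemma mono_cone_cd {κ : Type*} [Fintype κ] (i j : κ) :
    InCone Mono (fun x : Tor κ => cs (x i - x j)) := by
  classical
  simp only [cs_sub]
  exact InCone.add (.base (mono2 (mono_cs i) (mono_cs j))) (.base (mono2 (mono_sn i) (mono_sn j)))

lemma cone_Ham {J : ι → ι → ℝ} {h : ι → ℝ} (hJ : ∀ i j, 0 ≤ J i j) (hh : ∀ i, 0 ≤ h i) :
    InCone Mono (Ham J h) := by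
  classical
  refine InCone.add (InCone.sum _ fun i _ => InCone.sum _ fun j _ => ?_)
    (InCone.sum _ fun i _ => ?_)
  · exact InCone.smul _ (hJ i j) (mono_cone_cd i j)
  · exact InCone.smul _ (hh i) (.base (mono_cs i))

lemma cs_dd_add (a a' d d' : Ang) :
    cs ((a + d) - (a' + d')) + cs ((a - d) - (a' - d')) = 2 * (cs (a - a') * cs (d - d')) := by
  rw [show (a + d) - (a' + d') = (a - a') + (d - d') by abel,
    show (a - d) - (a' - d') = (a - a') - (d - d') by abel, cs_add, cs_sub (a - a') (d - d')]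
  ring

lemma cs_dd_sub (a a' d d' : Ang) :
    cs ((a + d) - (a' + d')) - cs ((a - d) - (a' - d')) = -2 * (sn (a - a') * sn (d - d')) := by
  rw [show (a + d) - (a' + d') = (a - a') + (d - d') by abel,
    show (a - d) - (a' - d') = (a - a') - (d - d') by abel, cs_add, cs_sub (a - a') (d - d')]
  ring

lemma Wd_eq (J : ι → ι → ℝ) (h : ι → ℝ) (x : Tor (ι ⊕ ι)) :
    Wd J h x = ∑ i, ∑ j, (2 * J i j) *
        (cs (x (.inl i) - x (.inl j)) * cs (x (.inr i) - x (.inr j))) +
      ∑ i, (2 * h i) * (cs (x (.inl i)) * cs (x (.inr i))) := by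
  simp only [Wd, Ham]
  rw [add_add_add_comm, ← Finset.sum_add_distrib, ← Finset.sum_add_distrib]
  congr 1
  · refine Finset.sum_congr rfl fun i _ => ?_
    rw [← Finset.sum_add_distrib]
    refine Finset.sum_congr rfl fun j _ => ?_
    rw [← mul_add, cs_dd_add]; ring
  · refine Finset.sum_congr rfl fun i _ => ?_
    rw [← mul_add, cs_add, cs_sub]; ring

lemma cone_Wd_mono {J : ι → ι → ℝ} {h : ι → ℝ} (hJ : ∀ i j, 0 ≤ J i j) (hh : ∀ i, 0 ≤ h i) :
    InCone Mono (Wd J h) := by
  classical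
  rw [show Wd J h = _ from funext (Wd_eq J h)]
  refine InCone.add (InCone.sum _ fun i _ => InCone.sum _ fun j _ => ?_)
    (InCone.sum _ fun i _ => ?_)
  · exact InCone.smul _ (mul_nonneg zero_le_two (hJ i j))
      ((mono_cone_cd (Sum.inl i) (Sum.inl j)).mul isPos_mono
        (mono_cone_cd (Sum.inr i) (Sum.inr j)))
  · exact InCone.smul _ (mul_nonneg zero_le_two (hh i))
      (.base (mono2 (mono_cs (Sum.inl i)) (mono_cs (Sum.inr i))))

lemma cone_Wd_sq {J : ι → ι → ℝ} {h : ι → ℝ} (hJ : ∀ i j, 0 ≤ J i j) (hh : ∀ i, 0 ≤ h i) :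
    InCone Sq (Wd J h) := by
  rw [show Wd J h = _ from funext (Wd_eq J h)]
  refine InCone.add (InCone.sum _ fun i _ => InCone.sum _ fun j _ => ?_)
    (InCone.sum _ fun i _ => ?_)
  · exact InCone.smul _ (mul_nonneg zero_le_two (hJ i j))
      (.base ⟨fun t => cs (t i - t j), by fun_prop, rfl⟩)
  · exact InCone.smul _ (mul_nonneg zero_le_two (hh i))
      (.base ⟨fun t => cs (t i), by fun_prop, rfl⟩)

/-- Observables whose duplicated difference is `-2 u(a) u(d)`. -/
def NegSq (f : Tor ι → ℝ) : Prop :=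
  Continuous f ∧ ∃ u : Tor ι → ℝ, Continuous u ∧
    ∀ x, dd f x = -2 * (u (fun i => x (.inl i)) * u (fun i => x (.inr i)))

omit [Fintype ι] in
lemma negSq_CD (i j : ι) : NegSq (CD i j) :=
  ⟨by fun_prop, fun t => sn (t i - t j), by fun_prop, fun x => by
    simp only [dd, CD]; exact cs_dd_sub _ _ _ _⟩

omit [Fintype ι] in
lemma negSq_X (i : ι) : NegSq (X i) :=
  ⟨by fun_prop, fun t => sn (t i), by fun_prop, fun x => by
    simp only [dd, X, cs_add, cs_sub]; ring⟩

/-- Ginibre's inequality. -/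
theorem ginibre {J : ι → ι → ℝ} {h : ι → ℝ} (hJ : ∀ i j, 0 ≤ J i j) (hh : ∀ i, 0 ≤ h i)
    {f g : Tor ι → ℝ} (hf : NegSq f) (hg : NegSq g) : 0 ≤ Cov J h f g := by
  obtain ⟨hfc, u, hu, hdf⟩ := hf
  obtain ⟨hgc, v, hv, hdg⟩ := hg
  refine cov_nonneg_of_cone isPos_sq J h hfc hgc (cone_Wd_sq hJ hh) ?_
  have h4 : InCone Sq (fun x : Tor (ι ⊕ ι) => (4 : ℝ) *
      ((u * v) (fun i => x (.inl i)) * (u * v) (fun i => x (.inr i)))) :=
    InCone.smul _ (by norm_num) (.base ⟨u * v, hu.mul hv, rfl⟩)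
  convert h4 using 1
  funext x
  simp only [Pi.mul_apply, hdf, hdg]
  ring

lemma cone_neg_dd_XX (a b : ι) : InCone Mono (fun x : Tor (ι ⊕ ι) => -dd (XX a b) x) := by
  classical
  have h : InCone Mono (fun x : Tor (ι ⊕ ι) => (2 : ℝ) *
      ((cs (x (.inl a)) * cs (x (.inr a))) * (sn (x (.inl b)) * sn (x (.inr b))) +
        (sn (x (.inl a)) * sn (x (.inr a))) * (cs (x (.inl b)) * cs (x (.inr b))))) :=
    InCone.smul _ zero_le_two (InCone.add
      (.base (mono2 (mono2 (mono_cs (Sum.inl a)) (mono_cs (Sum.inr a)))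
        (mono2 (mono_sn (Sum.inl b)) (mono_sn (Sum.inr b)))))
      (.base (mono2 (mono2 (mono_sn (Sum.inl a)) (mono_sn (Sum.inr a)))
        (mono2 (mono_cs (Sum.inl b)) (mono_cs (Sum.inr b))))))
  convert h using 1
  funext x
  simp only [dd, XX, cs_add, cs_sub]
  ring

lemma cone_dd_YY (a b : ι) : InCone Mono (fun x : Tor (ι ⊕ ι) => dd (YY a b) x) := by
  classical
  have h : InCone Mono (fun x : Tor (ι ⊕ ι) => (2 : ℝ) *
      ((sn (x (.inl a)) * cs (x (.inr a))) * (cs (x (.inl b)) * sn (x (.inr b))) +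
        (cs (x (.inl a)) * sn (x (.inr a))) * (sn (x (.inl b)) * cs (x (.inr b))))) :=
    InCone.smul _ zero_le_two (InCone.add
      (.base (mono2 (mono2 (mono_sn (Sum.inl a)) (mono_cs (Sum.inr a)))
        (mono2 (mono_cs (Sum.inl b)) (mono_sn (Sum.inr b)))))
      (.base (mono2 (mono2 (mono_cs (Sum.inl a)) (mono_sn (Sum.inr a)))
        (mono2 (mono_sn (Sum.inl b)) (mono_cs (Sum.inr b))))))
  convert h using 1
  funext x
  simp only [dd, YY, sn_add, sn_sub]
  ring

/-- Correlations between parallel and transverse pairs are negative. -/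
theorem cov_XX_YY_nonpos {J : ι → ι → ℝ} {h : ι → ℝ} (hJ : ∀ i j, 0 ≤ J i j)
    (hh : ∀ i, 0 ≤ h i) (a b c d : ι) : Cov J h (XX a b) (YY c d) ≤ 0 := by
  refine cov_nonpos_of_cone isPos_mono J h (by fun_prop) (by fun_prop) (cone_Wd_mono hJ hh) ?_
  have := (cone_neg_dd_XX a b).mul isPos_mono (cone_dd_YY c d)
  convert this using 1
  funext x
  simp only [Pi.mul_apply]
  ring

theorem Ex_nonneg_of_cone {J : ι → ι → ℝ} {h : ι → ℝ} (hJ : ∀ i j, 0 ≤ J i j)
    (hh : ∀ i, 0 ≤ h i) {f : Tor ι → ℝ} (hf : InCone Mono f) : 0 ≤ Ex J h f :=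
  div_nonneg (integral_exp_mul_nonneg isPos_mono (cone_Ham hJ hh) hf) (Zf_pos J h).le

/-! ### Symmetries without field -/

/-- The two point function. -/
noncomputable def Co (J : ι → ι → ℝ) (a b : ι) : ℝ := Ex J 0 (CD a b)

lemma Ham_zero_add_const (J : ι → ι → ℝ) (θ : Tor ι) (c : Ang) :
    Ham J 0 (θ + fun _ => c) = Ham J 0 θ := by
  simp only [Ham, Pi.zero_apply, zero_mul, Pi.add_apply]
  simp only [add_sub_add_right_eq_sub]

lemma Ham_zero_neg (J : ι → ι → ℝ) (θ : Tor ι) : Ham J 0 (-θ) = Ham J 0 θ := by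
  simp only [Ham, Pi.zero_apply, zero_mul, Pi.neg_apply]
  simp only [← neg_sub', cs_neg]

lemma Ex_rot (J : ι → ι → ℝ) (c : Ang) (f : Tor ι → ℝ) :
    Ex J 0 (fun θ => f (θ + fun _ => c)) = Ex J 0 f := by
  simp only [Ex, Nf]
  congr 1
  conv_rhs => rw [← integral_add_const _ (fun _ => c)]
  simp only [Ham_zero_add_const]

lemma Ex_refl (J : ι → ι → ℝ) (f : Tor ι → ℝ) :
    Ex J 0 (fun θ => f (-θ)) = Ex J 0 f := by
  simp only [Ex, Nf]
  congr 1
  conv_rhs => rw [← integral_neg_eq_self]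
  simp only [Ham_zero_neg]

lemma cs_add_quarter (x : Ang) : cs (x + ((π / 2 : ℝ) : Ang)) = - sn x := by
  rw [cs_add, cs_coe, sn_coe, Real.cos_pi_div_two, Real.sin_pi_div_two]; ring

lemma sn_add_quarter (x : Ang) : sn (x + ((π / 2 : ℝ) : Ang)) = cs x := by
  rw [sn_add, cs_coe, sn_coe, Real.cos_pi_div_two, Real.sin_pi_div_two]; ring

lemma Ex_XX_eq_YY (J : ι → ι → ℝ) (a b : ι) : Ex J 0 (XX a b) = Ex J 0 (YY a b) := by
  rw [← Ex_rot J ((π / 2 : ℝ) : Ang) (XX a b)]
  congr 1
  funext θ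
  simp only [XX, YY, Pi.add_apply, cs_add_quarter]
  ring

lemma Co_eq_two_XX (J : ι → ι → ℝ) (a b : ι) : Co J a b = 2 * Ex J 0 (XX a b) := by
  rw [Co, show CD a b = (fun θ : Tor ι => XX a b θ + YY a b θ) from funext fun θ => cs_sub _ _,
    Ex_add _ _ (by fun_prop) (by fun_prop), ← Ex_XX_eq_YY]
  ring

lemma Co_eq_two_YY (J : ι → ι → ℝ) (a b : ι) : Co J a b = 2 * Ex J 0 (YY a b) := by
  rw [Co_eq_two_XX, Ex_XX_eq_YY]

lemma Co_comm (J : ι → ι → ℝ) (a b : ι) : Co J a b = Co J b a := by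
  unfold Co
  congr 1
  funext θ
  simp only [CD]
  rw [← cs_neg, neg_sub]

lemma Co_self (J : ι → ι → ℝ) (a : ι) : Co J a a = 1 := by
  rw [Co, show CD a a = (fun _ : Tor ι => (1 : ℝ)) from funext fun θ => by simp [CD, cs_zero]]
  exact Ex_one J 0

lemma Co_le_one (J : ι → ι → ℝ) (a b : ι) : Co J a b ≤ 1 := by
  rw [Co, ← Ex_one J 0]
  exact Ex_mono J 0 (by fun_prop) continuous_const fun θ => (abs_le.mp (abs_cs_le _)).2

lemma Co_nonneg {J : ι → ι → ℝ} (hJ : ∀ i j, 0 ≤ J i j) (a b : ι) : 0 ≤ Co J a b :=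
  Ex_nonneg_of_cone hJ (fun _ => le_rfl) (mono_cone_cd a b)

/-- The mixed fourth moment `⟨x_a x_b y_c y_d⟩`. -/
noncomputable def M22 (J : ι → ι → ℝ) (a b c d : ι) : ℝ := Ex J 0 (XX a b * YY c d)

lemma M22_swap (J : ι → ι → ℝ) (a b c d : ι) : M22 J a b c d = M22 J c d a b := by
  unfold M22
  rw [← Ex_rot J ((π / 2 : ℝ) : Ang) (XX a b * YY c d)]
  congr 1
  funext θ
  simp only [Pi.mul_apply, XX, YY, Pi.add_apply, cs_add_quarter, sn_add_quarter]
  ring

lemma M22_le {J : ι → ι → ℝ} (hJ : ∀ i j, 0 ≤ J i j) (a b c d : ι) :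
    M22 J a b c d ≤ Co J a b * Co J c d / 4 := by
  have h := cov_XX_YY_nonpos hJ (fun _ => le_rfl) (h := 0) a b c d
  rw [Co_eq_two_XX J a b, Co_eq_two_YY J c d]
  simp only [Cov, sub_nonpos] at h
  unfold M22
  linarith

lemma Ex_XXXX (J : ι → ι → ℝ) (a b c d : ι) :
    Ex J 0 (XX a b * XX c d) = M22 J a b c d + M22 J a c b d + M22 J a d b c := by
  have hE := Ex_rot J ((π / 4 : ℝ) : Ang) (XX a b * XX c d)
  have hE2 := Ex_refl J (fun θ => (XX a b * XX c d) (θ + fun _ => ((π / 4 : ℝ) : Ang)))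
  have hYYYY : Ex J 0 (YY a b * YY c d) = Ex J 0 (XX a b * XX c d) := by
    rw [← Ex_rot J ((π / 2 : ℝ) : Ang) (XX a b * XX c d)]
    congr 1
    funext θ
    simp only [Pi.mul_apply, XX, YY, Pi.add_apply, cs_add_quarter]
    ring
  set k := Real.cos (π / 4) with hk
  have hs : Real.sin (π / 4) = k := by rw [hk, Real.cos_pi_div_four, Real.sin_pi_div_four]
  have hk2 : k ^ 2 = 1 / 2 := by
    rw [hk, Real.cos_pi_div_four, div_pow, Real.sq_sqrt zero_le_two]; norm_num
  have hpt : ∀ θ : Tor ι, (XX a b * XX c d) (θ + fun _ => ((π / 4 : ℝ) : Ang)) +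
      (XX a b * XX c d) (-θ + fun _ => ((π / 4 : ℝ) : Ang)) =
      (1 / 2) * ((XX a b * XX c d) θ + ((YY a b * YY c d) θ + ((XX a b * YY c d) θ +
        ((XX c d * YY a b) θ + ((XX a c * YY b d) θ + ((XX b d * YY a c) θ +
        ((XX a d * YY b c) θ + (XX b c * YY a d) θ))))))) := by
    intro θ
    simp only [Pi.mul_apply, XX, YY, Pi.add_apply, Pi.neg_apply, cs_add, cs_neg, sn_neg, cs_coe,
      sn_coe, hs, ← hk]
    have hk4 : k ^ 4 = 1 / 4 := by rw [show k ^ 4 = (k ^ 2) ^ 2 by ring, hk2]; norm_num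
    linear_combination (2 * (cs (θ a) * cs (θ b) * cs (θ c) * cs (θ d) +
      sn (θ a) * sn (θ b) * sn (θ c) * sn (θ d) + cs (θ a) * cs (θ b) * sn (θ c) * sn (θ d) +
      cs (θ c) * cs (θ d) * sn (θ a) * sn (θ b) + cs (θ a) * cs (θ c) * sn (θ b) * sn (θ d) +
      cs (θ b) * cs (θ d) * sn (θ a) * sn (θ c) + cs (θ a) * cs (θ d) * sn (θ b) * sn (θ c) +
      cs (θ b) * cs (θ c) * sn (θ a) * sn (θ d))) * hk4
  have hsum : Ex J 0 (fun θ => (XX a b * XX c d) (θ + fun _ => ((π / 4 : ℝ) : Ang)) +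
      (XX a b * XX c d) (-θ + fun _ => ((π / 4 : ℝ) : Ang))) = 2 * Ex J 0 (XX a b * XX c d) := by
    rw [Ex_add _ _ (by fun_prop) (by fun_prop), hE, hE2, hE]; ring
  simp only [hpt] at hsum
  rw [Ex_const_mul, Ex_add _ _ (by fun_prop) (by fun_prop), Ex_add _ _ (by fun_prop) (by fun_prop),
    Ex_add _ _ (by fun_prop) (by fun_prop), Ex_add _ _ (by fun_prop) (by fun_prop),
    Ex_add _ _ (by fun_prop) (by fun_prop), Ex_add _ _ (by fun_prop) (by fun_prop),
    Ex_add _ _ (by fun_prop) (by fun_prop), hYYYY] at hsum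
  change 1 / 2 * (_ + (_ + (M22 J a b c d + (M22 J c d a b + (M22 J a c b d +
    (M22 J b d a c + (M22 J a d b c + M22 J b c a d))))))) = _ at hsum
  rw [M22_swap J c d a b, M22_swap J b d a c, M22_swap J b c a d] at hsum
  linarith

/-- Lebowitz' inequality for the plane rotator, by isotropy. -/
theorem cov_CD_le {J : ι → ι → ℝ} (hJ : ∀ i j, 0 ≤ J i j) (a c i j : ι) :
    Cov J 0 (CD a c) (CD i j) ≤
      (Co J a i * Co J c j + Co J a j * Co J c i) / 2 := by
  have hpt : CD a c * CD i j = fun θ : Tor ι =>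
      ((XX a c * XX i j) θ + (YY a c * YY i j) θ) +
        ((XX a c * YY i j) θ + (XX i j * YY a c) θ) := by
    funext θ
    simp only [Pi.mul_apply, CD, XX, YY, cs_sub]
    ring
  have hYYYY : Ex J 0 (YY a c * YY i j) = Ex J 0 (XX a c * XX i j) := by
    rw [← Ex_rot J ((π / 2 : ℝ) : Ang) (XX a c * XX i j)]
    congr 1
    funext θ
    simp only [Pi.mul_apply, XX, YY, Pi.add_apply, cs_add_quarter]
    ring
  unfold Cov
  rw [hpt, Ex_add _ _ (by fun_prop) (by fun_prop), Ex_add _ _ (by fun_prop) (by fun_prop),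
    Ex_add _ _ (by fun_prop) (by fun_prop), hYYYY]
  change _ + _ + (M22 J a c i j + M22 J i j a c) - Co J a c * Co J i j ≤ _
  rw [M22_swap J i j a c, Ex_XXXX]
  linarith [M22_le hJ a c i j, M22_le hJ a i c j, M22_le hJ a j c i]

/-! ### Monotonicity and the comparison inequality -/

lemma cov_sum_right {α : Type*} (s : Finset α) (J : ι → ι → ℝ) (h : ι → ℝ) {f : Tor ι → ℝ}
    {g : α → Tor ι → ℝ} (hf : Continuous f) (hg : ∀ a, Continuous (g a)) :
    Cov J h f (fun θ => ∑ a ∈ s, g a θ) = ∑ a ∈ s, Cov J h f (g a) := by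
  unfold Cov
  rw [Ex_sum s J h hg, show (f * fun θ => ∑ a ∈ s, g a θ) = fun θ => ∑ a ∈ s, (f * g a) θ from
    funext fun θ => by simp [Finset.mul_sum]]
  rw [Ex_sum s J h fun a => hf.mul (hg a), Finset.mul_sum, ← Finset.sum_sub_distrib]

lemma cov_const_mul_right (J : ι → ι → ℝ) (h : ι → ℝ) (c : ℝ) (f g : Tor ι → ℝ) :
    Cov J h f (fun θ => c * g θ) = c * Cov J h f g := by
  unfold Cov
  rw [Ex_const_mul, show (f * fun θ => c * g θ) = fun θ => c * (f * g) θ from
    funext fun θ => by simp [mul_left_comm]]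
  rw [Ex_const_mul]; ring

lemma Cov_D (J D : ι → ι → ℝ) (h : ι → ℝ) {f : Tor ι → ℝ} (hf : Continuous f) :
    Cov J h f (fun θ => ∑ i, ∑ j, D i j * cs (θ i - θ j)) =
      ∑ i, ∑ j, D i j * Cov J h f (CD i j) := by
  rw [cov_sum_right _ J h hf fun i => by fun_prop]
  refine Finset.sum_congr rfl fun i _ => ?_
  rw [cov_sum_right _ J h hf fun j => by fun_prop]
  exact Finset.sum_congr rfl fun j _ => cov_const_mul_right J h (D i j) f (CD i j)

theorem Ex_monotone {J J' : ι → ι → ℝ} {h : ι → ℝ} (hJ : ∀ i j, 0 ≤ J i j)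
    (hle : ∀ i j, J i j ≤ J' i j) (hh : ∀ i, 0 ≤ h i) {f : Tor ι → ℝ} (hf : NegSq f) :
    Ex J h f ≤ Ex J' h f := by
  set D : ι → ι → ℝ := fun i j => J' i j - J i j with hD
  set F : ℝ → ℝ := fun t => Ex (fun i j => J i j + t * D i j) h f with hF
  have hder := hasDerivAt_Ex J D h hf.1
  have hmono : MonotoneOn F (Set.Icc 0 1) := by
    refine monotoneOn_of_hasDerivWithinAt_nonneg (convex_Icc 0 1)
      (fun t _ => (hder t).continuousAt.continuousWithinAt)
      (fun t _ => (hder t).hasDerivWithinAt) fun t ht => ?_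
    rw [interior_Icc] at ht
    rw [Cov_D _ _ _ hf.1]
    refine Finset.sum_nonneg fun i _ => Finset.sum_nonneg fun j _ => ?_
    refine mul_nonneg (sub_nonneg.mpr (hle i j)) (ginibre (fun i j => ?_) hh hf (negSq_CD i j))
    exact add_nonneg (hJ i j) (mul_nonneg ht.1.le (sub_nonneg.mpr (hle i j)))
  have := hmono (Set.left_mem_Icc.mpr zero_le_one) (Set.right_mem_Icc.mpr zero_le_one) zero_le_one
  simpa [hF, hD] using this

theorem Co_monotone {J J' : ι → ι → ℝ} (hJ : ∀ i j, 0 ≤ J i j)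
    (hle : ∀ i j, J i j ≤ J' i j) (a b : ι) : Co J a b ≤ Co J' a b :=
  Ex_monotone hJ hle (fun _ => le_rfl) (negSq_CD a b)

/-- The comparison inequality (integrated Lebowitz inequality). -/
theorem Co_compare {J J' : ι → ι → ℝ} (hJ : ∀ i j, 0 ≤ J i j)
    (hle : ∀ i j, J i j ≤ J' i j) (a c : ι) :
    Co J' a c - Co J a c ≤ ∑ i, ∑ j, (J' i j - J i j) *
      ((Co J' a i * Co J' c j + Co J' a j * Co J' c i) / 2) := by
  set D : ι → ι → ℝ := fun i j => J' i j - J i j with hD
  set F : ℝ → ℝ := fun t => Ex (fun i j => J i j + t * D i j) 0 (CD a c) with hF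
  have hder := hasDerivAt_Ex J D 0 (continuous_CD a c)
  obtain ⟨t, ht, hslope⟩ := exists_hasDerivAt_eq_slope F _ zero_lt_one
    (fun t _ => (hder t).continuousAt.continuousWithinAt) (fun t _ => hder t)
  have h01 : F 1 - F 0 = Co J' a c - Co J a c := by simp [hF, hD, Co]
  rw [sub_zero, div_one, h01] at hslope
  rw [← hslope, Cov_D _ _ _ (continuous_CD a c)]
  refine Finset.sum_le_sum fun i _ => Finset.sum_le_sum fun j _ => ?_
  have hJt : ∀ i j, 0 ≤ J i j + t * D i j := fun i j =>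
    add_nonneg (hJ i j) (mul_nonneg ht.1.le (sub_nonneg.mpr (hle i j)))
  have hle' : ∀ i j, J i j + t * D i j ≤ J' i j := fun i j => by
    have := mul_le_of_le_one_left (sub_nonneg.mpr (hle i j)) ht.2.le
    simp only [hD]
    linarith
  have hm : ∀ x y, Co (fun i j => J i j + t * D i j) x y ≤ Co J' x y :=
    Co_monotone hJt hle'
  refine mul_le_mul_of_nonneg_left ((cov_CD_le hJt a c i j).trans ?_) (sub_nonneg.mpr (hle i j))
  have hJ' : ∀ i j, 0 ≤ J' i j := fun i j => (hJ i j).trans (hle i j)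
  gcongr
  · exact Co_nonneg hJt _ _
  · exact Co_nonneg hJ' _ _
  · exact hm _ _
  · exact hm _ _
  · exact Co_nonneg hJt _ _
  · exact Co_nonneg hJ' _ _
  · exact hm _ _
  · exact hm _ _

/-! ### Relabelling and pinning -/

variable {κ : Type*} [Fintype κ]

noncomputable def restrictHom (e : ι → κ) : Tor κ →+ Tor ι where
  toFun θ i := θ (e i)
  map_zero' := rfl
  map_add' _ _ := rfl

/-- Pushforward of couplings. -/
noncomputable def push [DecidableEq κ] (e : ι → κ) (J : ι → ι → ℝ) : κ → κ → ℝ :=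
  fun p q => ∑ a, ∑ b, if e a = p ∧ e b = q then J a b else 0

omit [Fintype κ] in
lemma push_nonneg [DecidableEq κ] (e : ι → κ) {J : ι → ι → ℝ} (hJ : ∀ i j, 0 ≤ J i j)
    (p q : κ) : 0 ≤ push e J p q :=
  Finset.sum_nonneg fun a _ => Finset.sum_nonneg fun b _ => by split <;> simp [hJ a b]

lemma Co_push [DecidableEq κ] {e : ι → κ} (he : Function.Injective e) (J : ι → ι → ℝ)
    (a b : ι) : Co (push e J) (e a) (e b) = Co J a b := by
  have hH : ∀ θ : Tor κ, Ham (push e J) 0 θ = Ham J 0 (fun i => θ (e i)) := by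
    intro θ
    simp only [Ham, push, Pi.zero_apply, zero_mul, Finset.sum_const_zero, add_zero, Finset.sum_mul,
      ite_mul, ite_and]
    calc ∑ p, ∑ q, ∑ x, ∑ y, (if e x = p then if e y = q then J x y * cs (θ p - θ q) else 0 else 0)
        = ∑ x, ∑ y, ∑ p, ∑ q,
            (if e x = p then if e y = q then J x y * cs (θ p - θ q) else 0 else 0) := by
          rw [Finset.sum_comm_cycle]
          refine Finset.sum_congr rfl fun x _ => ?_
          rw [Finset.sum_comm_cycle]
      _ = _ := by simp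
  have hsurj : Function.Surjective (restrictHom e) := fun t =>
    ⟨Function.extend e t 0, funext fun i => he.extend_apply t 0 i⟩
  have hcont : Continuous (restrictHom e) := continuous_pi fun i => continuous_apply _
  unfold Co Ex Nf Zf
  simp only [hH]
  congr 1
  · exact integral_comp_hom (restrictHom e) hcont hsurj
      (g := fun t => Real.exp (Ham J 0 t) * CD a b t) (by fun_prop)
  · exact integral_comp_hom (restrictHom e) hcont hsurj
      (g := fun t => Real.exp (Ham J 0 t)) (by fun_prop)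

lemma Co_embed [DecidableEq κ] {e : ι → κ} (he : Function.Injective e) {J : ι → ι → ℝ}
    {J' : κ → κ → ℝ} (hJ : ∀ i j, 0 ≤ J i j) (hle : ∀ p q, push e J p q ≤ J' p q) (a b : ι) :
    Co J a b ≤ Co J' (e a) (e b) :=
  (Co_push he J a b).ge.trans (Co_monotone (push_nonneg e hJ) hle (e a) (e b))

variable [DecidableEq ι]

/-- Coordinates relative to the spin at `b`. -/
noncomputable def pinHom (b : ι) : Tor ι →+ Tor ι where
  toFun x i := if i = b then x b else x i + x b
  map_zero' := by funext i; simp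
  map_add' x y := by
    funext i
    simp only [Pi.add_apply]
    split
    · rfl
    · abel

/-- Supermultiplicativity. -/
theorem Co_supermul {J : ι → ι → ℝ} (hJ : ∀ i j, 0 ≤ J i j) (a b c : ι) :
    Co J a b * Co J b c ≤ Co J a c := by
  rcases eq_or_ne a b with rfl | hab
  · rw [Co_self, one_mul]
  rcases eq_or_ne c b with rfl | hcb
  · rw [Co_self, mul_one]
  let J1 : ι → ι → ℝ := fun i j => if i = b ∨ j = b then 0 else J i j
  let h1 : ι → ℝ := fun i => if i = b then 0 else J i b + J b i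
  have hJ1 : ∀ i j, 0 ≤ J1 i j := fun i j => by simp only [J1]; split <;> simp [hJ]
  have hh1 : ∀ i, 0 ≤ h1 i := fun i => by
    simp only [h1]; split <;> simp [add_nonneg (hJ i b) (hJ b i)]
  have hH : ∀ x, Ham J 0 (pinHom b x) = Ham J1 h1 x + J b b := by
    intro x
    simp only [Ham, pinHom, AddMonoidHom.coe_mk, ZeroHom.coe_mk, Pi.zero_apply, zero_mul,
      Finset.sum_const_zero, add_zero]
    have hterm : ∀ i j, J i j *
        cs ((if i = b then x b else x i + x b) - (if j = b then x b else x j + x b)) =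
        J1 i j * cs (x i - x j) + ((if j = b then (if i = b then 0 else J i b * cs (x i)) else 0) +
          (if i = b then (if j = b then 0 else J b j * cs (x j)) else 0)) +
          (if j = b then (if i = b then J b b else 0) else 0) := by
      intro i j
      by_cases hi : i = b <;> by_cases hj : j = b
      · simp [J1, hi, hj, cs_zero]
      · subst hi
        simp [J1, hj, ← cs_neg (x j)]
      · subst hj
        simp [J1, hi]
      · simp [J1, hi, hj]
    simp only [hterm, Finset.sum_add_distrib, Finset.sum_ite_eq', Finset.mem_univ, if_true]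
    rw [Finset.sum_comm (f := fun i j => if i = b then (if j = b then 0 else J b j * cs (x j))
      else 0)]
    simp only [Finset.sum_ite_eq', Finset.mem_univ, if_true, ← Finset.sum_add_distrib]
    rw [add_left_inj]
    refine Finset.sum_congr rfl fun i _ => ?_
    simp only [h1]
    split <;> ring
  have hsurj : Function.Surjective (pinHom b) := fun y =>
    ⟨fun i => if i = b then y b else y i - y b, funext fun i => by
      simp only [pinHom, AddMonoidHom.coe_mk, ZeroHom.coe_mk]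
      by_cases hi : i = b
      · simp [hi]
      · simp [hi]⟩
  have hcont : Continuous (pinHom b) := by
    refine continuous_pi fun i => ?_
    simp only [pinHom, AddMonoidHom.coe_mk, ZeroHom.coe_mk]
    split <;> fun_prop
  have key : ∀ f : Tor ι → ℝ, Continuous f →
      Ex J 0 f = Ex J1 h1 (fun x => f (pinHom b x)) := by
    intro f hf
    unfold Ex Nf Zf
    rw [← integral_comp_hom (pinHom b) hcont hsurj (g := fun t => Real.exp (Ham J 0 t) * f t)
        (by fun_prop),
      ← integral_comp_hom (pinHom b) hcont hsurj (g := fun t => Real.exp (Ham J 0 t)) (by fun_prop)]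
    simp only [hH, Real.exp_add, mul_right_comm _ (Real.exp (J b b))]
    rw [integral_mul_const, integral_mul_const, mul_div_mul_right _ _ (Real.exp_pos _).ne']
  have e1 : Co J a b = Ex J1 h1 (X a) := by
    rw [Co, key _ (by fun_prop)]
    congr 1; funext x
    simp [pinHom, CD, X, hab]
  have e2 : Co J b c = Ex J1 h1 (X c) := by
    rw [Co_comm, Co, key _ (by fun_prop)]
    congr 1; funext x
    simp [pinHom, CD, X, hcb]
  have e3 : Co J a c = Ex J1 h1 (XX a c) + Ex J1 h1 (YY a c) := by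
    rw [Co, key _ (by fun_prop), ← Ex_add _ _ (by fun_prop) (by fun_prop)]
    congr 1; funext x
    simp [pinHom, CD, XX, YY, hab, hcb, cs_sub]
  have hg := ginibre hJ1 hh1 (negSq_X a) (negSq_X c)
  have hy : 0 ≤ Ex J1 h1 (YY a c) :=
    Ex_nonneg_of_cone hJ1 hh1 (.base (mono2 (mono_sn a) (mono_sn c)))
  rw [e1, e2, e3]
  change 0 ≤ Ex J1 h1 (XX a c) - Ex J1 h1 (X a) * Ex J1 h1 (X c) at hg
  linarith

end Vale.Agent.P159.XY
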