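import Vale.Agent.P159.XY.Ineq
import Vale.Agent.P159.XY.Defs

/-!
# P159: lattice consequences
-/

namespace Vale.Agent.P159.XY

open MeasureTheory Real Filter
open scoped Topology

noncomputable def Jb (R : ℕ) (b : ℝ) (x y : Site R) : ℝ := if IsNbr x.1 y.1 then b / 2 else 0

lemma Jb_nonneg {R : ℕ} {b : ℝ} (hb : 0 ≤ b) (x y : Site R) : 0 ≤ Jb R b x y := by
  unfold Jb; split <;> linarith

lemma corrBox_eq (R : ℕ) (b : ℝ) (x y : Site R) : corrBox R b x y = Co (Jb R b) x y := by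
  have hH : ∀ θ : Config R, b * edgeEnergy R θ = Ham (Jb R b) 0 θ := by
    intro θ
    simp only [edgeEnergy, Ham, Jb, Pi.zero_apply, zero_mul, Finset.sum_const_zero, add_zero,
      Finset.mul_sum]
    refine Finset.sum_congr rfl fun i _ => Finset.sum_congr rfl fun j _ => ?_
    split
    · rw [cs]; ring
    · simp
  simp only [corrBox, hH]
  rfl

lemma mem_box {R : ℕ} {x : ℤ × ℤ} :
    x ∈ box R ↔ x.1.natAbs ≤ R ∧ x.2.natAbs ≤ R := by
  simp only [box, Finset.mem_product, Finset.mem_Icc]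
  omega

lemma zero_mem_box (R : ℕ) : ((0, 0) : ℤ × ℤ) ∈ box R := mem_box.mpr (by simp)

lemma corr_of_mem {R : ℕ} (b : ℝ) {x y : ℤ × ℤ} (hx : x ∈ box R) (hy : y ∈ box R) :
    corr R b x y = Co (Jb R b) ⟨x, hx⟩ ⟨y, hy⟩ := by
  rw [corr, dif_pos ⟨hx, hy⟩, corrBox_eq]

lemma corr_nonneg {R : ℕ} {b : ℝ} (hb : 0 ≤ b) (x y : ℤ × ℤ) : 0 ≤ corr R b x y := by
  unfold corr
  split
  · rw [corrBox_eq]; exact Co_nonneg (Jb_nonneg hb) _ _
  · exact le_rfl

lemma corr_le_one (R : ℕ) (b : ℝ) (x y : ℤ × ℤ) : corr R b x y ≤ 1 := by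
  unfold corr
  split
  · rw [corrBox_eq]; exact Co_le_one _ _ _
  · exact zero_le_one

lemma corr_comm (R : ℕ) (b : ℝ) (x y : ℤ × ℤ) : corr R b x y = corr R b y x := by
  by_cases h : x ∈ box R ∧ y ∈ box R
  · rw [corr_of_mem b h.1 h.2, corr_of_mem b h.2 h.1, Co_comm]
  · rw [corr, dif_neg h, corr, dif_neg fun h' => h h'.symm]

lemma corr_mono {R : ℕ} {b b' : ℝ} (hb : 0 ≤ b) (hle : b ≤ b') (x y : ℤ × ℤ) :
    corr R b x y ≤ corr R b' x y := by
  unfold corr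
  split
  · rw [corrBox_eq, corrBox_eq]
    refine Co_monotone (Jb_nonneg hb) (fun i j => ?_) _ _
    unfold Jb; split <;> linarith
  · exact le_rfl

lemma corr_map {R R' : ℕ} {b : ℝ} (hb : 0 ≤ b) (σ : ℤ × ℤ → ℤ × ℤ)
    (hinj : Function.Injective σ) (hbox : ∀ x ∈ box R, σ x ∈ box R')
    (hnbr : ∀ x y, IsNbr x y → IsNbr (σ x) (σ y)) (x y : ℤ × ℤ) :
    corr R b x y ≤ corr R' b (σ x) (σ y) := by
  by_cases h : x ∈ box R ∧ y ∈ box R
  · rw [corr_of_mem b h.1 h.2, corr_of_mem b (hbox x h.1) (hbox y h.2)]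
    let e : Site R → Site R' := fun p => ⟨σ p.1, hbox p.1 p.2⟩
    have he : Function.Injective e := fun p q hpq => Subtype.ext (hinj (congrArg Subtype.val hpq))
    refine Co_embed (e := e) he (Jb_nonneg hb) (fun p q => ?_) ⟨x, h.1⟩ ⟨y, h.2⟩
    by_cases hp : ∃ a, e a = p
    · by_cases hq : ∃ a, e a = q
      · obtain ⟨a, rfl⟩ := hp
        obtain ⟨c, rfl⟩ := hq
        have : push e (Jb R b) (e a) (e c) = Jb R b a c := by
          simp only [push, he.eq_iff, ite_and]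
          simp
        rw [this]
        unfold Jb
        by_cases hn : IsNbr a.1 c.1
        · rw [if_pos hn, if_pos (hnbr _ _ hn)]
        · rw [if_neg hn]; split <;> linarith
      · refine le_trans (le_of_eq ?_) (Jb_nonneg hb p q)
        refine Finset.sum_eq_zero fun a _ => Finset.sum_eq_zero fun c _ => if_neg fun hh => ?_
        exact hq ⟨c, hh.2⟩
    · refine le_trans (le_of_eq ?_) (Jb_nonneg hb p q)
      refine Finset.sum_eq_zero fun a _ => Finset.sum_eq_zero fun c _ => if_neg fun hh => ?_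
      exact hp ⟨a, hh.1⟩
  · rw [corr, dif_neg h]; exact corr_nonneg hb _ _

lemma corr_mono_R {R R' : ℕ} (hR : R ≤ R') {b : ℝ} (hb : 0 ≤ b) (x y : ℤ × ℤ) :
    corr R b x y ≤ corr R' b x y :=
  corr_map hb id Function.injective_id
    (fun p hp => mem_box.mpr ⟨(mem_box.mp hp).1.trans hR, (mem_box.mp hp).2.trans hR⟩)
    (fun _ _ h => h) x y

lemma corr_supermul {R : ℕ} {b : ℝ} (hb : 0 ≤ b) (x y z : ℤ × ℤ) :
    corr R b x y * corr R b y z ≤ corr R b x z := by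
  by_cases h : x ∈ box R ∧ y ∈ box R ∧ z ∈ box R
  · rw [corr_of_mem b h.1 h.2.1, corr_of_mem b h.2.1 h.2.2, corr_of_mem b h.1 h.2.2]
    exact Co_supermul (Jb_nonneg hb) _ _ _
  · have : corr R b x y = 0 ∨ corr R b y z = 0 := by
      by_cases h1 : x ∈ box R ∧ y ∈ box R
      · right; exact dif_neg fun h2 => h ⟨h1.1, h1.2, h2.2⟩
      · left; exact dif_neg h1
    rcases this with h' | h' <;> simp [h', corr_nonneg hb]

/-! ### Infinite volume -/

/-- The sup norm. -/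
def nrm (x : ℤ × ℤ) : ℕ := max x.1.natAbs x.2.natAbs

lemma mem_box' {R : ℕ} {x : ℤ × ℤ} : x ∈ box R ↔ nrm x ≤ R := by
  rw [mem_box, nrm, max_le_iff]

/-- Infinite volume correlation. -/
noncomputable def Gi (b : ℝ) (x : ℤ × ℤ) : ℝ := ⨆ R, corr R b (0, 0) x

lemma bddAbove_corr (b : ℝ) (x : ℤ × ℤ) :
    BddAbove (Set.range fun R => corr R b (0, 0) x) :=
  ⟨1, by rintro _ ⟨R, rfl⟩; exact corr_le_one R b _ _⟩

lemma le_Gi (R : ℕ) (b : ℝ) (x : ℤ × ℤ) : corr R b (0, 0) x ≤ Gi b x :=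
  le_ciSup (bddAbove_corr b x) R

lemma Gi_nonneg {b : ℝ} (hb : 0 ≤ b) (x : ℤ × ℤ) : 0 ≤ Gi b x :=
  (corr_nonneg hb _ _).trans (le_Gi 0 b x)

lemma Gi_le_one (b : ℝ) (x : ℤ × ℤ) : Gi b x ≤ 1 := ciSup_le fun R => corr_le_one R b _ _

lemma Gi_mono {b b' : ℝ} (hb : 0 ≤ b) (hle : b ≤ b') (x : ℤ × ℤ) : Gi b x ≤ Gi b' x :=
  ciSup_le fun R => (corr_mono hb hle _ _).trans (le_Gi R b' x)

lemma C_eq {b : ℝ} (hb : 0 ≤ b) (r : ℕ) : C b r = Gi b ((r : ℤ), 0) :=
  (tendsto_atTop_ciSup (fun _ _ h => corr_mono_R h hb _ _) (bddAbove_corr b _)).limUnder_eq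

lemma tendsto_corr_C {b : ℝ} (hb : 0 ≤ b) (r : ℕ) :
    Tendsto (fun R => corr R b (0, 0) ((r : ℤ), 0)) atTop (𝓝 (C b r)) := by
  rw [C_eq hb]
  exact tendsto_atTop_ciSup (fun _ _ h => corr_mono_R h hb _ _) (bddAbove_corr b _)

lemma corr_le_Gi (R : ℕ) {b : ℝ} (hb : 0 ≤ b) (a c : ℤ × ℤ) :
    corr R b a c ≤ Gi b (c - a) := by
  refine le_trans ?_ (le_Gi (R + nrm a) b (c - a))
  have h := corr_map (R := R) (R' := R + nrm a) hb (fun p => p - a)
    (sub_left_injective) (fun p hp => mem_box'.mpr ?_) (fun p q h => ?_) a c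
  · simpa [Prod.mk_zero_zero] using h
  · have := mem_box'.mp hp
    simp only [nrm, Prod.fst_sub, Prod.snd_sub] at this ⊢
    omega
  · simpa [IsNbr] using h

lemma Gi_supermul {b : ℝ} (hb : 0 ≤ b) (x y : ℤ × ℤ) : Gi b x * Gi b y ≤ Gi b (x + y) := by
  rw [Gi, Real.iSup_mul_of_nonneg (Gi_nonneg hb y)]
  refine ciSup_le fun R => ?_
  rw [Gi, Real.mul_iSup_of_nonneg (corr_nonneg hb _ _)]
  refine ciSup_le fun R' => ?_
  refine le_trans ?_ (le_Gi (R + R' + nrm x) b (x + y))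
  refine le_trans ?_ (corr_supermul hb (0, 0) x (x + y))
  refine mul_le_mul (corr_mono_R (by omega) hb _ _) ?_ (corr_nonneg hb _ _) (corr_nonneg hb _ _)
  have h := corr_map (R := R') (R' := R + R' + nrm x) hb (fun p => p + x)
    (add_left_injective x) (fun p hp => mem_box'.mpr ?_) (fun p q h => ?_) (0, 0) y
  · simpa [Prod.mk_zero_zero, add_comm y x] using h
  · have := mem_box'.mp hp
    simp only [nrm, Prod.fst_add, Prod.snd_add] at this ⊢
    omega
  · simpa [IsNbr] using h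

lemma Gi_le_sym {b : ℝ} (hb : 0 ≤ b) (σ : ℤ × ℤ → ℤ × ℤ) (hinj : Function.Injective σ)
    (h0 : σ (0, 0) = (0, 0)) (hbox : ∀ p, nrm (σ p) = nrm p)
    (hnbr : ∀ x y, IsNbr x y → IsNbr (σ x) (σ y)) (x : ℤ × ℤ) : Gi b x ≤ Gi b (σ x) := by
  refine ciSup_le fun R => le_trans ?_ (le_Gi R b (σ x))
  have h := corr_map (R := R) (R' := R) hb σ hinj
    (fun p hp => mem_box'.mpr (by rw [hbox]; exact mem_box'.mp hp)) hnbr (0, 0) x
  rwa [h0] at h

lemma Gi_flip1 {b : ℝ} (hb : 0 ≤ b) (x y : ℤ) : Gi b (x, y) ≤ Gi b (-x, y) :=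
  Gi_le_sym hb (fun p => (-p.1, p.2)) (fun p q h => by simpa [Prod.ext_iff] using h) (by simp)
    (fun p => by simp [nrm]) (fun p q h => by
      simp only [IsNbr] at h ⊢; rw [← h, ← abs_neg (p.1 - q.1)]; ring_nf) (x, y)

lemma Gi_flip2 {b : ℝ} (hb : 0 ≤ b) (x y : ℤ) : Gi b (x, y) ≤ Gi b (x, -y) :=
  Gi_le_sym hb (fun p => (p.1, -p.2)) (fun p q h => by simpa [Prod.ext_iff] using h) (by simp)
    (fun p => by simp [nrm]) (fun p q h => by
      simp only [IsNbr] at h ⊢; rw [← h, ← abs_neg (p.2 - q.2)]; ring_nf) (x, y)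

lemma Gi_swap {b : ℝ} (hb : 0 ≤ b) (x y : ℤ) : Gi b (x, y) ≤ Gi b (y, x) :=
  Gi_le_sym hb Prod.swap Prod.swap_injective rfl
    (fun p => by simp [nrm, max_comm]) (fun p q h => by
      simp only [IsNbr, Prod.fst_swap, Prod.snd_swap] at h ⊢; rw [← h]; ring) (x, y)

lemma Gi_sq_le {b : ℝ} (hb : 0 ≤ b) (x : ℤ × ℤ) : Gi b x ^ 2 ≤ C b (2 * nrm x) := by
  suffices h : ∀ a c : ℤ, c.natAbs ≤ a.natAbs → Gi b (a, c) ^ 2 ≤ C b (2 * a.natAbs) by
    obtain ⟨a, c⟩ := x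
    rcases le_total c.natAbs a.natAbs with h1 | h1
    · rw [nrm, max_eq_left h1]; exact h a c h1
    · rw [nrm, max_eq_right h1]
      refine le_trans ?_ (h c a h1)
      exact pow_le_pow_left₀ (Gi_nonneg hb _) (Gi_swap hb a c) 2
  intro a c _
  rw [C_eq hb]
  have h0 : Gi b (a, c) ≤ Gi b ((a.natAbs : ℤ), c) := by
    rcases Int.natAbs_eq a with h | h
    · rw [← h]
    · calc Gi b (a, c) ≤ Gi b (-a, c) := Gi_flip1 hb a c
        _ = _ := by congr 2; omega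
  calc Gi b (a, c) ^ 2 ≤ Gi b ((a.natAbs : ℤ), c) ^ 2 := pow_le_pow_left₀ (Gi_nonneg hb _) h0 2
    _ ≤ Gi b ((a.natAbs : ℤ), c) * Gi b ((a.natAbs : ℤ), -c) := by
        rw [sq]; exact mul_le_mul_of_nonneg_left (Gi_flip2 hb _ _) (Gi_nonneg hb _)
    _ ≤ Gi b (((a.natAbs : ℤ), c) + ((a.natAbs : ℤ), -c)) := Gi_supermul hb _ _
    _ = _ := by
        congr 1
        rw [Prod.mk_add_mk, add_neg_cancel]
        push_cast
        ring_nf

lemma integral_CD_sq {ι : Type*} [Fintype ι] [DecidableEq ι] {i j : ι} (hij : i ≠ j) :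
    ∫ θ, CD i j θ * CD i j θ ∂(μT ι) = 1 / 2 := by
  have h1 : ∫ θ, CD i j θ * CD i j θ ∂(μT ι) =
      ∫ θ, sn (θ i - θ j) * sn (θ i - θ j) ∂(μT ι) := by
    conv_lhs => rw [← integral_add_const _ (Pi.single i ((π / 2 : ℝ) : Ang))]
    congr 1
    funext θ
    simp only [CD, Pi.add_apply, Pi.single_eq_same, Pi.single_eq_of_ne hij.symm, add_zero,
      add_sub_right_comm, cs_add_quarter]
    ring
  have h2 : ∫ θ, CD i j θ * CD i j θ ∂(μT ι) + ∫ θ, sn (θ i - θ j) * sn (θ i - θ j) ∂(μT ι) = 1 := by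
    rw [← integral_add (integrable_of_continuous (by fun_prop))
      (integrable_of_continuous (by fun_prop))]
    simp [CD, ← sq, cs_sq_add_sn_sq]
  linarith

lemma C_one_pos {b : ℝ} (hb : 0 < b) : 0 < C b 1 := by
  rw [C_eq hb.le]
  refine lt_of_lt_of_le ?_ (le_Gi 1 b _)
  have h1 : (((1 : ℕ) : ℤ), (0 : ℤ)) ∈ box 1 := mem_box.mpr (by simp)
  rw [corr_of_mem b (zero_mem_box 1) h1]
  set p : Site 1 := ⟨(0, 0), zero_mem_box 1⟩
  set q : Site 1 := ⟨(((1 : ℕ) : ℤ), 0), h1⟩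
  have hpq : p ≠ q := by simp [p, q]
  refine div_pos ?_ (Zf_pos _ _)
  have hge := integral_exp_mul_ge isPos_mono
    (cone_Ham (h := (0 : Site 1 → ℝ)) (Jb_nonneg hb.le) fun _ => le_rfl) (mono_cone_cd p q)
  refine lt_of_lt_of_le ?_ hge
  refine add_pos_of_nonneg_of_pos ((mono_cone_cd p q).integral_nonneg isPos_mono) ?_
  have hexp : ∫ θ, Ham (Jb 1 b) 0 θ * cs (θ p - θ q) ∂(μT (Site 1)) =
      ∑ i, ∑ j, Jb 1 b i j * ∫ θ, CD i j θ * CD p q θ ∂(μT (Site 1)) := by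
    simp only [Ham, Pi.zero_apply, zero_mul, Finset.sum_const_zero, add_zero, Finset.sum_mul,
      mul_assoc]
    rw [integral_finsetSum _ fun i _ => integrable_of_continuous (by fun_prop)]
    refine Finset.sum_congr rfl fun i _ => ?_
    rw [integral_finsetSum _ fun j _ => integrable_of_continuous (by fun_prop)]
    refine Finset.sum_congr rfl fun j _ => ?_
    rw [integral_const_mul]
    rfl
  rw [hexp]
  have hnn : ∀ i j, 0 ≤ Jb 1 b i j * ∫ θ, CD i j θ * CD p q θ ∂(μT (Site 1)) := fun i j =>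
    mul_nonneg (Jb_nonneg hb.le i j)
      (((mono_cone_cd i j).mul isPos_mono (mono_cone_cd p q)).integral_nonneg isPos_mono)
  refine lt_of_lt_of_le ?_ (Finset.single_le_sum (fun i _ => Finset.sum_nonneg fun j _ => hnn i j)
    (Finset.mem_univ p))
  refine lt_of_lt_of_le ?_ (Finset.single_le_sum (fun j _ => hnn p j) (Finset.mem_univ q))
  rw [integral_CD_sq hpq, Jb, if_pos (by simp [IsNbr, p, q])]
  positivity

/-! ### The mass -/

lemma C_pos {b : ℝ} (hb : 0 < b) (r : ℕ) : 0 < C b r := by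
  induction r with
  | zero =>
    rw [C_eq hb.le]
    refine lt_of_lt_of_le ?_ (le_Gi 0 b _)
    rw [Nat.cast_zero, corr_of_mem b (zero_mem_box 0) (zero_mem_box 0), Co_self]
    norm_num
  | succ n ih =>
    refine lt_of_lt_of_le (mul_pos ih (C_one_pos hb)) ?_
    simp only [C_eq hb.le]
    refine (Gi_supermul hb.le _ _).trans (le_of_eq ?_)
    simp

noncomputable def u (b : ℝ) (r : ℕ) : ℝ := -Real.log (C b r)

lemma u_nonneg {b : ℝ} (hb : 0 < b) (r : ℕ) : 0 ≤ u b r := by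
  rw [u, neg_nonneg]
  exact Real.log_nonpos (C_pos hb r).le (by rw [C_eq hb.le]; exact Gi_le_one b _)

lemma subadditive_u {b : ℝ} (hb : 0 < b) : Subadditive (u b) := by
  intro r s
  unfold u
  rw [← neg_add, neg_le_neg_iff, ← Real.log_mul (C_pos hb r).ne' (C_pos hb s).ne']
  refine Real.log_le_log (mul_pos (C_pos hb r) (C_pos hb s)) ?_
  simp only [C_eq hb.le]
  refine (Gi_supermul hb.le _ _).trans (le_of_eq ?_)
  simp

lemma tendsto_m {b : ℝ} (hb : 0 < b) :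
    Tendsto (fun r : ℕ => -(1 / (r : ℝ)) * Real.log (C b r)) atTop (𝓝 (m b)) := by
  have hbd : BddBelow (Set.range fun n => u b n / n) :=
    ⟨0, by rintro _ ⟨n, rfl⟩; exact div_nonneg (u_nonneg hb n) (Nat.cast_nonneg n)⟩
  have h := (subadditive_u hb).tendsto_lim hbd
  have h' : Tendsto (fun r : ℕ => -(1 / (r : ℝ)) * Real.log (C b r)) atTop
      (𝓝 (subadditive_u hb).lim) := by
    refine h.congr fun n => ?_
    unfold u; ring
  rwa [show m b = (subadditive_u hb).lim from h'.limUnder_eq]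

lemma m_nonneg {b : ℝ} (hb : 0 < b) : 0 ≤ m b := by
  refine ge_of_tendsto' (tendsto_m hb) fun r => ?_
  have := u_nonneg hb r
  unfold u at this
  rw [neg_mul, ← mul_neg]
  exact mul_nonneg (by positivity) this

lemma C_le_exp {b : ℝ} (hb : 0 < b) (r : ℕ) : C b r ≤ Real.exp (-(m b * r)) := by
  rcases Nat.eq_zero_or_pos r with rfl | hr
  · simp only [Nat.cast_zero, mul_zero, neg_zero, Real.exp_zero, C_eq hb.le]
    exact Gi_le_one b _
  have hbd : BddBelow (Set.range fun n => u b n / n) :=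
    ⟨0, by rintro _ ⟨n, rfl⟩; exact div_nonneg (u_nonneg hb n) (Nat.cast_nonneg n)⟩
  have h := (subadditive_u hb).lim_le_div hbd hr.ne'
  have hlim : m b = (subadditive_u hb).lim := by
    refine tendsto_nhds_unique (tendsto_m hb) (((subadditive_u hb).tendsto_lim hbd).congr fun n => ?_)
    unfold u; ring
  rw [← hlim, le_div_iff₀ (by exact_mod_cast hr)] at h
  unfold u at h
  calc C b r = Real.exp (Real.log (C b r)) := (Real.exp_log (C_pos hb r)).symm
    _ ≤ _ := Real.exp_le_exp.mpr (by linarith)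

lemma m_anti {b b' : ℝ} (hb : 0 < b) (hle : b ≤ b') : m b' ≤ m b := by
  refine le_of_tendsto_of_tendsto' (tendsto_m (hb.trans_le hle)) (tendsto_m hb) fun r => ?_
  rw [neg_mul, neg_mul, neg_le_neg_iff]
  refine mul_le_mul_of_nonneg_left (Real.log_le_log (C_pos hb r) ?_) (by positivity)
  simp only [C_eq hb.le, C_eq (hb.le.trans hle)]
  exact Gi_mono hb.le hle _

lemma Gi_le_exp {b : ℝ} (hb : 0 < b) (x : ℤ × ℤ) :
    Gi b x ≤ Real.exp (-(m b * nrm x)) := by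
  have h := (Gi_sq_le hb.le x).trans (C_le_exp hb _)
  refine le_of_pow_le_pow_left₀ two_ne_zero (Real.exp_pos _).le (h.trans (le_of_eq ?_))
  rw [← Real.exp_nat_mul]
  push_cast
  ring_nf

end Vale.Agent.P159.XY
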