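import Vale.Agent.P159.XY.Decay

/-!
# P159: bounds on the correlation length below the critical point
-/

namespace Vale.Agent.P159.XY

open MeasureTheory Real Filter
open scoped Topology

/-- `∑_{x ∈ Λ_R} E_{R,b} cos(θ_0 - θ_x)`. -/
noncomputable def chiBox (R : ℕ) (b : ℝ) : ℝ := ∑ x ∈ box R, corr R b (0, 0) x

lemma m_pos_small {b : ℝ} (hb : 0 < b) (hb8 : b < 1 / 8) : 0 < m b := by
  have h0 : ∀ R (a : Site R), ∑ c, Co (Jb R 0) a c ≤ 1 := by
    intro R a
    rw [Finset.sum_eq_single a (fun c _ hca => ?_) (by simp), Co_self]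
    have hJ : Jb R 0 = fun _ _ => 0 := by funext i j; simp [Jb]
    have : Co (Jb R 0) a c = - Co (Jb R 0) a c := by
      conv_lhs => rw [Co, Ex, Nf, ← integral_add_const _ (Pi.single a ((π : ℝ) : Ang))]
      rw [Co, Ex, Nf, ← neg_div, ← integral_neg]
      congr 1
      congr 1
      funext θ
      simp [hJ, Ham, CD, Pi.single_eq_of_ne hca, add_sub_right_comm, cs_add_pi]
    linarith
  exact m_pos_of_chi (K := 2 * 1) hb fun R a =>
    chi_boot le_rfl hb.le one_pos (h0 R) (by linarith) a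

lemma not_small {b b' K : ℝ} (hb : 0 ≤ b) (hlt : b < b') (hm' : m b' = 0) (hK : 0 < K)
    (hchi : ∀ R (a : Site R), ∑ c, Co (Jb R b) a c ≤ K) : 1 ≤ 8 * (b' - b) * K := by
  by_contra h
  push Not at h
  exact (m_pos_of_chi (hb.trans_lt hlt)
    fun R a => chi_boot hb hlt.le hK (hchi R) h a).ne' hm'

lemma open_massive {b : ℝ} (hb : 0 < b) (hm : 0 < m b) :
    ∃ d > 0, ∀ b', b ≤ b' → b' < b + d → 0 < m b' := by
  have hK : 0 < Kb b := by unfold Kb; positivity
  refine ⟨1 / (8 * Kb b), by positivity, fun b' hle hlt => ?_⟩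
  refine m_pos_of_chi (hb.trans_le hle) fun R a =>
    chi_boot hb.le hle hK (chi_le hb hm R) ?_ a
  have h : b' - b < 1 / (8 * Kb b) := by linarith
  rw [lt_div_iff₀ (by positivity)] at h
  linarith

lemma bddBelow_massless : BddBelow massless := ⟨0, fun _ h => h.1.le⟩

lemma eighth_le {b : ℝ} (h : b ∈ massless) : 1 / 8 ≤ b := by
  by_contra hlt
  exact (m_pos_small h.1 (not_le.mp hlt)).ne' h.2

lemma bc_ge (hne : massless.Nonempty) : 1 / 8 ≤ bc := le_csInf hne fun _ => eighth_le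

lemma m_pos_below {b : ℝ} (hb : 0 < b) (hlt : b < bc) : 0 < m b :=
  (m_nonneg hb).lt_of_ne fun h => (csInf_le bddBelow_massless ⟨hb, h.symm⟩).not_gt hlt

lemma bc_mem (hne : massless.Nonempty) : bc ∈ massless := by
  have hpos : 0 < bc := lt_of_lt_of_le (by norm_num) (bc_ge hne)
  refine ⟨hpos, ?_⟩
  by_contra h
  obtain ⟨d, hd, hd'⟩ := open_massive hpos ((m_nonneg hpos).lt_of_ne' h)
  obtain ⟨x, hx, hxlt⟩ := exists_lt_of_csInf_lt hne (show sInf massless < bc + d by
    rw [← bc]; linarith)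
  exact (hd' x (csInf_le bddBelow_massless hx) hxlt).ne' hx.2

lemma eta_anti {b b' : ℝ} (hb : 0 < b) (hle : b ≤ b') : eta b' ≤ eta b := by
  unfold eta
  gcongr

lemma power_algebra {e d M : ℝ} (he0 : 0 < e) (he2 : e ≤ 2) (hd : 0 < d) (hd1 : d ≤ 1 / 512)
    (h3 : 1 / (128 * d) ≤ (1 + 2 * M) ^ e) (hM : 0 ≤ M) :
    (1 / 4) * (128 : ℝ) ^ (-(1 / e)) * d ^ (-(1 / e)) ≤ M := by
  have hN0 : 0 ≤ 1 + 2 * M := by linarith
  have h4 : (1 / (128 * d)) ^ (1 / e) ≤ 1 + 2 * M := by
    calc (1 / (128 * d)) ^ (1 / e) ≤ ((1 + 2 * M) ^ e) ^ (1 / e) :=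
          Real.rpow_le_rpow (by positivity) h3 (by positivity)
      _ = 1 + 2 * M := by rw [← Real.rpow_mul hN0, mul_one_div_cancel he0.ne', Real.rpow_one]
  have h5 : 2 ≤ (1 / (128 * d)) ^ (1 / e) := by
    have h6 : (2 : ℝ) ^ e ≤ 1 / (128 * d) := by
      refine (Real.rpow_le_rpow_of_exponent_le one_le_two he2).trans ?_
      rw [Real.rpow_two, le_div_iff₀ (by positivity)]
      linarith
    calc (2 : ℝ) = ((2 : ℝ) ^ e) ^ (1 / e) := by
          rw [← Real.rpow_mul zero_le_two, mul_one_div_cancel he0.ne', Real.rpow_one]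
      _ ≤ _ := Real.rpow_le_rpow (by positivity) h6 (by positivity)
  have h7 : (1 / (128 * d)) ^ (1 / e) = (128 : ℝ) ^ (-(1 / e)) * d ^ (-(1 / e)) := by
    rw [← Real.mul_rpow (by norm_num) hd.le, Real.rpow_neg (by positivity), one_div (128 * d),
      Real.inv_rpow (by positivity)]
  rw [h7] at h4 h5
  linarith

theorem xi_lower {b b' : ℝ} (hb : 0 < b) (hlt : b < b') (hm' : m b' = 0) (hm : 0 < m b)
    (hnear : b' - b ≤ 1 / 512) :
    (1 / 4) * (128 : ℝ) ^ (-(1 / (2 - eta b' / 4))) * (b' - b) ^ (-(1 / (2 - eta b' / 4))) ≤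
      ξ b := by
  have hlo := eta_pos (hb.trans hlt)
  have hup := eta_le (b := b')
  have hd : 0 < b' - b := sub_pos.mpr hlt
  have hN1 : 1 ≤ 1 + 2 / m b := le_add_of_nonneg_right (div_nonneg zero_le_two hm.le)
  have hK : 0 < Kb b :=
    mul_pos (by norm_num) (Real.rpow_pos_of_pos (lt_of_lt_of_le one_pos hN1) _)
  have h1 := not_small hb.le hlt hm' hK (chi_le hb hm)
  have h2 : Kb b ≤ 16 * (1 + 2 / m b) ^ (2 - eta b' / 4) := by
    have := eta_anti hb hlt.le
    exact mul_le_mul_of_nonneg_left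
      (Real.rpow_le_rpow_of_exponent_le hN1 (by linarith)) (by norm_num)
  have h2' := mul_le_mul_of_nonneg_left h2 (show 0 ≤ 8 * (b' - b) by linarith)
  refine power_algebra (by linarith) (by linarith) hd hnear ?_ (one_div_pos.mpr hm).le
  rw [ξ, show 2 * (1 / m b) = 2 / m b by ring, div_le_iff₀ (by positivity)]
  linarith

/-- The unconditional form of `xi_lower`. -/
theorem massive_near {β b b' : ℝ} (hb : 0 < b) (hle : b ≤ b') (hβ : b' ≤ β) (hd1 : b' - b ≤ 1 / 512)
    (hm : 512 * (b' - b) ^ (1 / (2 - eta β / 4)) < m b) : 0 < m b' := by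
  have hm0 : 0 < m b := lt_of_le_of_lt
    (mul_nonneg (by norm_num) (Real.rpow_nonneg (sub_nonneg.mpr hle) _)) hm
  rcases hle.lt_or_eq with hlt | rfl
  swap
  · exact hm0
  refine (m_nonneg (hb.trans_le hle)).lt_of_ne fun h => ?_
  have hx := xi_lower hb hlt h.symm hm0 hd1
  have hd : 0 < b' - b := sub_pos.mpr hlt
  set p := 1 / (2 - eta b' / 4) with hp
  set q := 1 / (2 - eta β / 4) with hq
  have he := eta_anti (hb.trans hlt) hβ
  have he1 := eta_le (b := b')
  have he2 := eta_pos (hb.trans hlt)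
  have hqp : q ≤ p := one_div_le_one_div_of_le (by linarith) (by linarith)
  have hp1 : p ≤ 1 := by
    rw [hp, div_le_one (by linarith)]; linarith
  have h1 : (128 : ℝ)⁻¹ ≤ (128 : ℝ) ^ (-p) := by
    rw [← Real.rpow_neg_one]
    exact Real.rpow_le_rpow_of_exponent_le (by norm_num) (by linarith)
  have h2 : (b' - b) ^ (-q) ≤ (b' - b) ^ (-p) :=
    Real.rpow_le_rpow_of_exponent_ge hd (by linarith) (by linarith)
  have h3 : (1 / 512) * (b' - b) ^ (-q) ≤ 1 / m b := by
    refine le_trans ?_ hx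
    calc (1 / 512) * (b' - b) ^ (-q) = (1 / 4) * (128 : ℝ)⁻¹ * (b' - b) ^ (-q) := by norm_num
      _ ≤ _ := mul_le_mul (mul_le_mul_of_nonneg_left h1 (by norm_num)) h2
          (Real.rpow_nonneg hd.le _) (mul_nonneg (by norm_num) (Real.rpow_nonneg (by norm_num) _))
  have h4 : (b' - b) ^ (-q) * (b' - b) ^ q = 1 := by
    rw [← Real.rpow_add hd, neg_add_cancel, Real.rpow_zero]
  rw [le_div_iff₀ hm0] at h3
  have h5 := mul_lt_mul_of_pos_left hm
    (mul_pos (show (0 : ℝ) < 1 / 512 by norm_num) (Real.rpow_pos_of_pos hd (-q)))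
  have h6 : 1 / 512 * (b' - b) ^ (-q) * (512 * (b' - b) ^ q) = 1 := by
    refine Eq.trans ?_ h4
    ring
  linarith

theorem chiBox_large {b b' K : ℝ} (hb : 0 ≤ b) (hle : b ≤ b') (hm' : m b' = 0) (hb' : 0 < b')
    (hK : 8 * (b' - b) * K < 1) : ∃ R, K < chiBox R b := by
  by_contra h
  push Not at h
  have hchi : ∀ R (a : Site R), ∑ c, Co (Jb R b) a c ≤ max K 0 := by
    intro R a
    refine le_trans ?_ ((h (R + nrm a.1)).trans (le_max_left _ _))
    calc ∑ c : Site R, Co (Jb R b) a c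
        ≤ ∑ c : Site R, corr (R + nrm a.1) b (0, 0) (c.1 - a.1) := by
          refine Finset.sum_le_sum fun c _ => ?_
          rw [← corr_of_mem b a.2 c.2]
          have h := corr_map (R := R) (R' := R + nrm a.1) hb (fun p => p - a.1)
            sub_left_injective (fun p hp => mem_box'.mpr ?_) (fun p q h => ?_) a.1 c.1
          · simpa [Prod.mk_zero_zero] using h
          · have := mem_box'.mp hp
            simp only [nrm, Prod.fst_sub, Prod.snd_sub] at this ⊢
            omega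
          · simpa [IsNbr] using h
      _ ≤ chiBox (R + nrm a.1) b := by
          rw [chiBox, ← Finset.sum_image (s := Finset.univ)
            (g := fun c : Site R => c.1 - a.1) (f := fun x => corr (R + nrm a.1) b (0, 0) x)
            (fun p _ q _ h => Subtype.ext (sub_left_injective h))]
          refine Finset.sum_le_sum_of_subset_of_nonneg ?_ fun x _ _ => corr_nonneg hb _ _
          intro x hx
          simp only [Finset.mem_image, Finset.mem_univ, true_and] at hx
          obtain ⟨c, rfl⟩ := hx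
          have h1 := mem_box'.mp c.2
          refine mem_box'.mpr ?_
          simp only [nrm, Prod.fst_sub, Prod.snd_sub] at h1 ⊢
          omega
  have h1 : ∀ R (a : Site R), (1 : ℝ) ≤ ∑ c, Co (Jb R b) a c := fun R a =>
    (Co_self (Jb R b) a).ge.trans
      (Finset.single_le_sum (fun c _ => Co_nonneg (Jb_nonneg hb) a c) (Finset.mem_univ a))
  have hKpos : 1 ≤ max K 0 := (h1 0 ⟨(0, 0), zero_mem_box 0⟩).trans (hchi 0 _)
  have hK0 : 0 ≤ K := by
    by_contra hneg
    rw [max_eq_right (not_le.mp hneg).le] at hKpos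
    linarith
  rw [max_eq_left hK0] at hchi hKpos
  rcases hle.lt_or_eq with hlt | rfl
  · linarith [not_small hb hlt hm' (by linarith) hchi]
  · exact (m_pos_of_chi hb' hchi).ne' hm'

end Vale.Agent.P159.XY
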