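import Vale.Agent.P159.XY.Torus

/-!
# P159: finite XY models, duplication, Ward identities
-/

namespace Vale.Agent.P159.XY

open MeasureTheory Real Filter
open scoped Topology

variable {ι : Type*} [Fintype ι]

/-- Minus the energy: ordered pair couplings `J` and fields `h`. -/
noncomputable def Ham (J : ι → ι → ℝ) (h : ι → ℝ) (θ : Tor ι) : ℝ :=
  ∑ i, ∑ j, J i j * cs (θ i - θ j) + ∑ i, h i * cs (θ i)

@[fun_prop] lemma continuous_Ham (J : ι → ι → ℝ) (h : ι → ℝ) : Continuous (Ham J h) := by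
  unfold Ham; fun_prop

noncomputable def Zf (J : ι → ι → ℝ) (h : ι → ℝ) : ℝ := ∫ θ, Real.exp (Ham J h θ) ∂(μT ι)

noncomputable def Nf (J : ι → ι → ℝ) (h : ι → ℝ) (f : Tor ι → ℝ) : ℝ :=
  ∫ θ, Real.exp (Ham J h θ) * f θ ∂(μT ι)

/-- The Gibbs expectation. -/
noncomputable def Ex (J : ι → ι → ℝ) (h : ι → ℝ) (f : Tor ι → ℝ) : ℝ := Nf J h f / Zf J h

noncomputable def Cov (J : ι → ι → ℝ) (h : ι → ℝ) (f g : Tor ι → ℝ) : ℝ :=
  Ex J h (f * g) - Ex J h f * Ex J h g

lemma integrable_weight (J : ι → ι → ℝ) (h : ι → ℝ) {f : Tor ι → ℝ} (hf : Continuous f) :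
    Integrable (fun θ => Real.exp (Ham J h θ) * f θ) (μT ι) :=
  integrable_of_continuous (by fun_prop)

lemma Zf_pos (J : ι → ι → ℝ) (h : ι → ℝ) : 0 < Zf J h :=
  integral_exp_pos (integrable_of_continuous (by fun_prop))

lemma Zf_ne (J : ι → ι → ℝ) (h : ι → ℝ) : Zf J h ≠ 0 := (Zf_pos J h).ne'

lemma Ex_one (J : ι → ι → ℝ) (h : ι → ℝ) : Ex J h (fun _ => (1 : ℝ)) = 1 := by
  simp only [Ex, Nf, mul_one]
  exact div_self (Zf_ne J h)

lemma Ex_add (J : ι → ι → ℝ) (h : ι → ℝ) {f g : Tor ι → ℝ} (hf : Continuous f)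
    (hg : Continuous g) : Ex J h (fun x => f x + g x) = Ex J h f + Ex J h g := by
  simp only [Ex, Nf, mul_add]
  rw [integral_add (integrable_weight J h hf) (integrable_weight J h hg), add_div]

lemma Ex_const_mul (J : ι → ι → ℝ) (h : ι → ℝ) (c : ℝ) (f : Tor ι → ℝ) :
    Ex J h (fun x => c * f x) = c * Ex J h f := by
  simp only [Ex, Nf, mul_left_comm _ c]
  rw [integral_const_mul, mul_div_assoc]

lemma Ex_neg (J : ι → ι → ℝ) (h : ι → ℝ) (f : Tor ι → ℝ) :
    Ex J h (fun x => - f x) = - Ex J h f := by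
  simpa using Ex_const_mul J h (-1) f

lemma Ex_sum {α : Type*} (s : Finset α) (J : ι → ι → ℝ) (h : ι → ℝ) {f : α → Tor ι → ℝ}
    (hf : ∀ a, Continuous (f a)) :
    Ex J h (fun x => ∑ a ∈ s, f a x) = ∑ a ∈ s, Ex J h (f a) := by
  simp only [Ex, Nf, Finset.mul_sum]
  rw [integral_finsetSum _ fun a _ => integrable_weight J h (hf a), Finset.sum_div]

lemma Ex_mono (J : ι → ι → ℝ) (h : ι → ℝ) {f g : Tor ι → ℝ} (hf : Continuous f)
    (hg : Continuous g) (hle : ∀ x, f x ≤ g x) : Ex J h f ≤ Ex J h g := by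
  refine div_le_div_of_nonneg_right ?_ (Zf_pos J h).le
  exact integral_mono (integrable_weight J h hf) (integrable_weight J h hg)
    fun x => mul_le_mul_of_nonneg_left (hle x) (Real.exp_pos _).le

/-! ### Duplication -/

lemma exists_half (x : Ang) : ∃ y : Ang, y + y = x := by
  obtain ⟨r, rfl⟩ := QuotientAddGroup.mk_surjective x
  exact ⟨((r / 2 : ℝ) : Ang), by rw [← AddCircle.coe_add, add_halves]⟩

/-- `(a, d) ↦ (a + d, a - d)`. -/
noncomputable def dbl : Tor (ι ⊕ ι) →+ Tor (ι ⊕ ι) where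
  toFun x := Sum.elim (fun i => x (.inl i) + x (.inr i)) (fun i => x (.inl i) - x (.inr i))
  map_zero' := by funext s; cases s <;> simp
  map_add' x y := by
    funext s
    cases s
    · simp only [Pi.add_apply, Sum.elim_inl]; abel
    · simp only [Pi.add_apply, Sum.elim_inr]; abel

omit [Fintype ι] in
lemma continuous_dbl : Continuous (dbl (ι := ι)) := by
  refine continuous_pi fun s => ?_
  cases s
  · exact (continuous_apply _).add (continuous_apply _)
  · exact (continuous_apply _).sub (continuous_apply _)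

omit [Fintype ι] in
lemma surjective_dbl : Function.Surjective (dbl (ι := ι)) := by
  intro y
  choose half hhalf using exists_half
  refine ⟨Sum.elim (fun i => half (y (.inl i) + y (.inr i)))
    (fun i => y (.inl i) - half (y (.inl i) + y (.inr i))), ?_⟩
  funext s
  cases s with
  | inl i => simp [dbl]
  | inr i =>
    simp only [dbl, AddMonoidHom.coe_mk, ZeroHom.coe_mk, Sum.elim_inr, Sum.elim_inl]
    calc half (y (.inl i) + y (.inr i)) - (y (.inl i) - half (y (.inl i) + y (.inr i)))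
        = (half (y (.inl i) + y (.inr i)) + half (y (.inl i) + y (.inr i))) - y (.inl i) := by
          abel
      _ = y (.inr i) := by rw [hhalf]; abel

lemma integral_pair (f g : Tor ι → ℝ) :
    ∫ x : Tor (ι ⊕ ι), f (fun i => x (.inl i)) * g (fun i => x (.inr i)) ∂(μT (ι ⊕ ι)) =
      (∫ θ, f θ ∂(μT ι)) * ∫ θ, g θ ∂(μT ι) := by
  rw [← integral_prod_mul f g]
  have h : MeasurePreserving (MeasurableEquiv.sumPiEquivProdPi fun _ : ι ⊕ ι => Ang)
      (μT (ι ⊕ ι)) ((μT ι).prod (μT ι)) :=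
    measurePreserving_sumPiEquivProdPi (fun _ : ι ⊕ ι => AddCircle.haarAddCircle)
  exact h.integral_comp' (fun p => f p.1 * g p.2)

/-- The duplicated difference of an observable. -/
noncomputable def dd (f : Tor ι → ℝ) (x : Tor (ι ⊕ ι)) : ℝ :=
  f (fun i => x (.inl i) + x (.inr i)) - f (fun i => x (.inl i) - x (.inr i))

noncomputable def Wd (J : ι → ι → ℝ) (h : ι → ℝ) (x : Tor (ι ⊕ ι)) : ℝ :=
  Ham J h (fun i => x (.inl i) + x (.inr i)) + Ham J h (fun i => x (.inl i) - x (.inr i))

theorem cov_dup (J : ι → ι → ℝ) (h : ι → ℝ) {f g : Tor ι → ℝ} (hf : Continuous f)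
    (hg : Continuous g) :
    ∫ x, Real.exp (Wd J h x) * (dd f x * dd g x) ∂(μT (ι ⊕ ι)) =
      2 * Zf J h ^ 2 * Cov J h f g := by
  let G : Tor (ι ⊕ ι) → ℝ := fun p =>
    Real.exp (Ham J h (fun i => p (.inl i)) + Ham J h (fun i => p (.inr i))) *
      ((f (fun i => p (.inl i)) - f (fun i => p (.inr i))) *
        (g (fun i => p (.inl i)) - g (fun i => p (.inr i))))
  have hG : Continuous G := by fun_prop
  have h1 : ∫ x, Real.exp (Wd J h x) * (dd f x * dd g x) ∂(μT (ι ⊕ ι)) =
      ∫ x, G x ∂(μT (ι ⊕ ι)) := by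
    rw [← integral_comp_hom dbl continuous_dbl surjective_dbl hG]
    rfl
  rw [h1]
  let w : Tor ι → ℝ := fun θ => Real.exp (Ham J h θ)
  let wp : (Tor ι → ℝ) → (Tor ι → ℝ) → Tor (ι ⊕ ι) → ℝ := fun u v p =>
    (w (fun i => p (.inl i)) * u (fun i => p (.inl i))) *
      (w (fun i => p (.inr i)) * v (fun i => p (.inr i)))
  have hwc : ∀ u v, Continuous u → Continuous v → Continuous (wp u v) := by
    intro u v hu hv; fun_prop
  have h2 : ∀ p, G p = (wp (f * g) 1 p + wp 1 (f * g) p) - (wp f g p + wp g f p) := by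
    intro p
    simp only [G, wp, w, Real.exp_add, Pi.mul_apply, Pi.one_apply]
    ring
  simp only [h2]
  have i1 := integrable_of_continuous (hwc (f * g) 1 (hf.mul hg) continuous_const)
  have i2 := integrable_of_continuous (hwc 1 (f * g) continuous_const (hf.mul hg))
  have i3 := integrable_of_continuous (hwc f g hf hg)
  have i4 := integrable_of_continuous (hwc g f hg hf)
  have e12 := integral_add i1 i2
  have e34 := integral_add i3 i4
  have e := integral_sub (i1.add i2) (i3.add i4)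
  simp only [Pi.add_apply] at e
  rw [e, e12, e34]
  have hp : ∀ u v, ∫ p, wp u v p ∂(μT (ι ⊕ ι)) = Nf J h u * Nf J h v := fun u v =>
    integral_pair (fun θ => w θ * u θ) (fun θ => w θ * v θ)
  rw [hp, hp, hp, hp]
  have hN1 : Nf J h 1 = Zf J h := by simp [Nf, Zf]
  rw [hN1]
  have hZ := Zf_ne J h
  simp only [Cov, Ex]
  field_simp
  ring

/-- A product class on the doubled torus. -/
def Sq (f : Tor (ι ⊕ ι) → ℝ) : Prop :=
  ∃ u : Tor ι → ℝ, Continuous u ∧ f = fun x => u (fun i => x (.inl i)) * u (fun i => x (.inr i))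

theorem isPos_sq : IsPos (Sq (ι := ι)) where
  cont := by
    rintro f ⟨u, hu, rfl⟩
    fun_prop
  one := ⟨fun _ => 1, continuous_const, by funext x; simp⟩
  mul := by
    rintro f g ⟨u, hu, rfl⟩ ⟨v, hv, rfl⟩
    refine ⟨u * v, hu.mul hv, ?_⟩
    funext x
    simp only [Pi.mul_apply]
    ring
  nonneg := by
    rintro f ⟨u, hu, rfl⟩
    rw [integral_pair]
    exact mul_self_nonneg _

theorem cov_nonneg_of_cone {S : (Tor (ι ⊕ ι) → ℝ) → Prop} (hS : IsPos S) (J : ι → ι → ℝ)
    (h : ι → ℝ) {f g : Tor ι → ℝ} (hf : Continuous f) (hg : Continuous g)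
    (hW : InCone S (Wd J h)) (hfg : InCone S (dd f * dd g)) : 0 ≤ Cov J h f g := by
  have h1 := integral_exp_mul_nonneg hS hW hfg
  simp only [Pi.mul_apply] at h1
  rw [cov_dup J h hf hg] at h1
  have := Zf_pos J h
  exact nonneg_of_mul_nonneg_right (a := 2 * Zf J h ^ 2) h1 (by positivity)

theorem cov_nonpos_of_cone {S : (Tor (ι ⊕ ι) → ℝ) → Prop} (hS : IsPos S) (J : ι → ι → ℝ)
    (h : ι → ℝ) {f g : Tor ι → ℝ} (hf : Continuous f) (hg : Continuous g)
    (hW : InCone S (Wd J h)) (hfg : InCone S (fun x => -(dd f x * dd g x))) :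
    Cov J h f g ≤ 0 := by
  have h1 := integral_exp_mul_nonneg hS hW hfg
  simp only [mul_neg, integral_neg] at h1
  rw [cov_dup J h hf hg] at h1
  have := Zf_pos J h
  by_contra hc
  push Not at hc
  have : 0 < 2 * Zf J h ^ 2 * Cov J h f g := by positivity
  linarith

/-! ### Differentiation in the couplings -/

theorem hasDerivAt_Ex (J D : ι → ι → ℝ) (h : ι → ℝ) {f : Tor ι → ℝ} (hf : Continuous f) (s : ℝ) :
    HasDerivAt (fun t => Ex (fun i j => J i j + t * D i j) h f)
      (Cov (fun i j => J i j + s * D i j) h f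
        (fun θ => ∑ i, ∑ j, D i j * cs (θ i - θ j))) s := by
  set U : Tor ι → ℝ := fun θ => ∑ i, ∑ j, D i j * cs (θ i - θ j) with hU
  have hUc : Continuous U := by fun_prop
  have hHam : ∀ t θ, Ham (fun i j => J i j + t * D i j) h θ = Ham J h θ + t * U θ := by
    intro t θ
    simp only [Ham, hU, add_mul, Finset.sum_add_distrib, Finset.mul_sum]
    simp only [mul_assoc]
    ring
  have hN : ∀ u : Tor ι → ℝ, Continuous u →
      HasDerivAt (fun t => Nf (fun i j => J i j + t * D i j) h u)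
        (Nf (fun i j => J i j + s * D i j) h (u * U)) s := by
    intro u hu
    simp only [Nf, hHam, Pi.mul_apply]
    refine (hasDerivAt_integral_of_dominated_loc_of_deriv_le
      (F := fun t θ => Real.exp (Ham J h θ + t * U θ) * u θ)
      (F' := fun t θ => Real.exp (Ham J h θ + t * U θ) * (u θ * U θ))
      (bound := fun θ => Real.exp (Ham J h θ + (|s| + 1) * |U θ|) * (|u θ| * |U θ|))
      (Metric.ball_mem_nhds s one_pos) ?_ ?_ ?_ ?_ ?_ ?_).2
    · exact Eventually.of_forall fun t =>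
        (by fun_prop : Continuous _).aestronglyMeasurable
    · exact integrable_of_continuous (by fun_prop)
    · exact (by fun_prop : Continuous _).aestronglyMeasurable
    · filter_upwards with θ
      intro t ht
      rw [Metric.mem_ball, Real.dist_eq] at ht
      rw [Real.norm_eq_abs, abs_mul, abs_mul, Real.abs_exp]
      refine mul_le_mul_of_nonneg_right (Real.exp_le_exp.mpr ?_) (by positivity)
      have h5 : |t| ≤ |s| + 1 := by
        have := abs_sub_abs_le_abs_sub t s
        linarith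
      have h6 : t * U θ ≤ (|s| + 1) * |U θ| :=
        (le_abs_self _).trans ((abs_mul t (U θ)).le.trans
          (mul_le_mul_of_nonneg_right h5 (abs_nonneg _)))
      linarith
    · exact integrable_of_continuous (by fun_prop)
    · filter_upwards with θ
      intro t _
      have h1 : HasDerivAt (fun t => Ham J h θ + t * U θ) (U θ) t := by
        simpa using ((hasDerivAt_id t).mul_const (U θ)).const_add (Ham J h θ)
      have h2 := h1.exp.mul_const (u θ)
      exact h2.congr_deriv (by ring)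
  have hZ1 : ∀ t, Zf (fun i j => J i j + t * D i j) h
      = Nf (fun i j => J i j + t * D i j) h 1 := by
    intro t; simp [Nf, Zf]
  have h3 := (hN f hf).div (hN 1 continuous_const) (by rw [← hZ1]; exact Zf_ne _ _)
  simp only [Pi.div_def] at h3
  simp only [Ex, hZ1]
  refine h3.congr_deriv ?_
  have hne := Zf_ne (fun i j => J i j + s * D i j) h
  rw [hZ1] at hne
  simp only [Cov, Ex, one_mul, hZ1]
  field_simp

end Vale.Agent.P159.XY
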