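import Mathlib

/-!
# P159: the torus, its uniform measure, and positive cones of functions
-/

namespace Vale.Agent.P159.XY

open MeasureTheory Real Filter
open scoped Topology

instance instFactTwoPiPos : Fact (0 < 2 * π) := ⟨by positivity⟩

abbrev Ang := AddCircle (2 * π)

noncomputable def cs (x : Ang) : ℝ := Real.Angle.cos x
noncomputable def sn (x : Ang) : ℝ := Real.Angle.sin x

@[fun_prop] lemma continuous_cs : Continuous cs := Real.Angle.continuous_cos
@[fun_prop] lemma continuous_sn : Continuous sn := Real.Angle.continuous_sin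

lemma cs_coe (x : ℝ) : cs (x : Ang) = Real.cos x := Real.Angle.cos_coe x
lemma sn_coe (x : ℝ) : sn (x : Ang) = Real.sin x := Real.Angle.sin_coe x
lemma cs_add (x y : Ang) : cs (x + y) = cs x * cs y - sn x * sn y := Real.Angle.cos_add x y
lemma sn_add (x y : Ang) : sn (x + y) = sn x * cs y + cs x * sn y := Real.Angle.sin_add x y
lemma cs_neg (x : Ang) : cs (-x) = cs x := Real.Angle.cos_neg x
lemma sn_neg (x : Ang) : sn (-x) = -sn x := Real.Angle.sin_neg x
lemma cs_sub (x y : Ang) : cs (x - y) = cs x * cs y + sn x * sn y := by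
  rw [sub_eq_add_neg, cs_add, cs_neg, sn_neg]; ring
lemma sn_sub (x y : Ang) : sn (x - y) = sn x * cs y - cs x * sn y := by
  rw [sub_eq_add_neg, sn_add, cs_neg, sn_neg]; ring
lemma cs_zero : cs 0 = 1 := Real.Angle.cos_zero
lemma cs_sq_add_sn_sq (x : Ang) : cs x ^ 2 + sn x ^ 2 = 1 := Real.Angle.cos_sq_add_sin_sq x
lemma abs_cs_le (x : Ang) : |cs x| ≤ 1 := by
  rw [abs_le]; constructor <;> nlinarith [cs_sq_add_sn_sq x, sq_nonneg (sn x)]
lemma cs_add_pi (x : Ang) : cs (x + ((π : ℝ) : Ang)) = -cs x := Real.Angle.cos_add_pi x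
lemma sn_add_pi (x : Ang) : sn (x + ((π : ℝ) : Ang)) = -sn x := Real.Angle.sin_add_pi x

/-- Configurations on a finite index set. -/
abbrev Tor (ι : Type*) := ι → Ang

/-- The uniform probability measure on configurations. -/
noncomputable def μT (ι : Type*) [Fintype ι] : Measure (Tor ι) :=
  Measure.pi fun _ => AddCircle.haarAddCircle

instance instProbμT (ι : Type*) [Fintype ι] : IsProbabilityMeasure (μT ι) := by
  unfold μT; infer_instance

instance instHaarμT (ι : Type*) [Fintype ι] : (μT ι).IsAddHaarMeasure := by
  unfold μT; infer_instance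

lemma integrable_of_continuous {ι : Type*} [Fintype ι] {E : Type*} [NormedAddCommGroup E]
    {f : Tor ι → E} (hf : Continuous f) : Integrable f (μT ι) :=
  hf.integrable_of_hasCompactSupport (HasCompactSupport.of_compactSpace f)

/-- A surjective continuous homomorphism of tori preserves the uniform measures. -/
lemma measurePreserving_hom {ι κ : Type*} [Fintype ι] [Fintype κ] (f : Tor ι →+ Tor κ)
    (hf : Continuous f) (hs : Function.Surjective f) :
    MeasurePreserving f (μT ι) (μT κ) := by
  refine ⟨hf.measurable, ?_⟩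
  have : IsProbabilityMeasure (Measure.map f (μT ι)) :=
    Measure.isProbabilityMeasure_map hf.measurable.aemeasurable
  have : (Measure.map f (μT ι)).IsAddHaarMeasure :=
    Measure.isAddHaarMeasure_map (μT ι) f hf hs (by simp)
  exact Measure.isAddHaarMeasure_eq_of_isProbabilityMeasure _ _

lemma integral_comp_hom {ι κ : Type*} [Fintype ι] [Fintype κ] {E : Type*} [NormedAddCommGroup E]
    [NormedSpace ℝ E] (f : Tor ι →+ Tor κ) (hf : Continuous f) (hs : Function.Surjective f)
    {g : Tor κ → E} (hg : Continuous g) :
    ∫ x, g (f x) ∂(μT ι) = ∫ y, g y ∂(μT κ) := by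
  have h := measurePreserving_hom f hf hs
  rw [← h.map_eq, integral_map hf.measurable.aemeasurable]
  rw [h.map_eq]; exact hg.aestronglyMeasurable

instance instNegμT (ι : Type*) [Fintype ι] : (μT ι).IsNegInvariant :=
  ⟨(measurePreserving_hom (-AddMonoidHom.id (Tor ι)) continuous_neg neg_surjective).map_eq⟩

/-- Translations preserve the uniform measure. -/
lemma integral_add_const {ι : Type*} [Fintype ι] {E : Type*} [NormedAddCommGroup E]
    [NormedSpace ℝ E] (g : Tor ι → E) (c : Tor ι) :
    ∫ x, g (x + c) ∂(μT ι) = ∫ x, g x ∂(μT ι) :=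
  integral_add_right_eq_self g c

/-! ### Cones of functions with nonnegative integral -/

variable {ι : Type*}

/-- Nonnegative combinations of elements of `S`. -/
inductive InCone (S : (Tor ι → ℝ) → Prop) : (Tor ι → ℝ) → Prop
  | base {f} : S f → InCone S f
  | zero : InCone S 0
  | add {f g} : InCone S f → InCone S g → InCone S (f + g)
  | smul {f} (c : ℝ) : 0 ≤ c → InCone S f → InCone S (c • f)

/-- `S` is multiplicatively closed, contains one, and has nonnegative integrals. -/
structure IsPos [Fintype ι] (S : (Tor ι → ℝ) → Prop) : Prop where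
  cont : ∀ f, S f → Continuous f
  one : S 1
  mul : ∀ f g, S f → S g → S (f * g)
  nonneg : ∀ f, S f → 0 ≤ ∫ x, f x ∂(μT ι)

variable [Fintype ι] {S : (Tor ι → ℝ) → Prop}

lemma InCone.continuous (hS : IsPos S) {f : Tor ι → ℝ} (hf : InCone S f) : Continuous f := by
  induction hf with
  | base h => exact hS.cont _ h
  | zero => exact continuous_const
  | add _ _ h1 h2 => exact h1.add h2
  | smul c _ _ h => exact continuous_const.smul h

lemma InCone.integral_nonneg (hS : IsPos S) {f : Tor ι → ℝ} (hf : InCone S f) :
    0 ≤ ∫ x, f x ∂(μT ι) := by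
  induction hf with
  | base h => exact hS.nonneg _ h
  | zero => simp
  | add hf hg h1 h2 =>
    simp only [Pi.add_apply]
    rw [integral_add (integrable_of_continuous (hf.continuous hS))
        (integrable_of_continuous (hg.continuous hS))]
    exact add_nonneg h1 h2
  | smul c hc _ h =>
    simp only [Pi.smul_apply, smul_eq_mul]
    rw [integral_const_mul]
    exact mul_nonneg hc h

lemma InCone.one (hS : IsPos S) : InCone S (1 : Tor ι → ℝ) := .base hS.one

lemma InCone.mul (hS : IsPos S) {f g : Tor ι → ℝ} (hf : InCone S f) (hg : InCone S g) :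
    InCone S (f * g) := by
  induction hf with
  | base h =>
    induction hg with
    | base h' => exact .base (hS.mul _ _ h h')
    | zero => rw [mul_zero]; exact .zero
    | add _ _ h1 h2 => rw [mul_add]; exact .add h1 h2
    | smul c hc _ h1 => rw [mul_smul_comm]; exact .smul c hc h1
  | zero => rw [zero_mul]; exact .zero
  | add _ _ h1 h2 => rw [add_mul]; exact .add h1 h2
  | smul c hc _ h1 => rw [smul_mul_assoc]; exact .smul c hc h1

lemma InCone.pow (hS : IsPos S) {f : Tor ι → ℝ} (hf : InCone S f) (n : ℕ) :
    InCone S (f ^ n) := by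
  induction n with
  | zero => rw [pow_zero]; exact InCone.one hS
  | succ n ih => rw [pow_succ]; exact ih.mul hS hf

omit [Fintype ι] in
lemma InCone.sum {α : Type*} (s : Finset α) {f : α → Tor ι → ℝ}
    (hf : ∀ a ∈ s, InCone S (f a)) : InCone S (fun x => ∑ a ∈ s, f a x) := by
  classical
  induction s using Finset.induction with
  | empty => simp only [Finset.sum_empty]; exact .zero
  | insert a s ha ih =>
    simp only [Finset.sum_insert ha]
    exact .add (hf a (Finset.mem_insert_self a s))
      (ih fun b hb => hf b (Finset.mem_insert_of_mem hb))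

/-- Exponential moments of cone elements are nonnegative. -/
theorem integral_exp_mul_nonneg (hS : IsPos S) {W g : Tor ι → ℝ} (hW : InCone S W)
    (hg : InCone S g) : 0 ≤ ∫ x, Real.exp (W x) * g x ∂(μT ι) := by
  have hWc := hW.continuous hS
  have hgc := hg.continuous hS
  let P : ℕ → Tor ι → ℝ := fun n x => (∑ k ∈ Finset.range n, W x ^ k / k.factorial) * g x
  have hP : ∀ n, InCone S (P n) := by
    intro n
    have h : InCone S (fun x => ∑ k ∈ Finset.range n, W x ^ k / k.factorial) :=
      InCone.sum _ fun k _ => by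
        have h2 := InCone.smul ((k.factorial : ℝ)⁻¹) (by positivity) (hW.pow hS k)
        convert h2 using 1
        funext x
        simp [div_eq_inv_mul]
    exact h.mul hS hg
  have hlim : Tendsto (fun n => ∫ x, P n x ∂(μT ι)) atTop
      (𝓝 (∫ x, Real.exp (W x) * g x ∂(μT ι))) := by
    refine tendsto_integral_of_dominated_convergence (fun x => Real.exp |W x| * |g x|)
      (fun n => ((hP n).continuous hS).aestronglyMeasurable)
      (integrable_of_continuous (by fun_prop)) ?_ ?_
    · intro n
      filter_upwards with x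
      rw [Real.norm_eq_abs, abs_mul]
      gcongr
      refine (Finset.abs_sum_le_sum_abs _ _).trans ?_
      refine le_trans (le_of_eq ?_) (Real.sum_le_exp_of_nonneg (abs_nonneg (W x)) n)
      refine Finset.sum_congr rfl fun k _ => ?_
      rw [abs_div, abs_pow, Nat.abs_cast]
    · filter_upwards with x
      have h := (NormedSpace.expSeries_div_hasSum_exp (W x)).tendsto_sum_nat
      rw [← Real.exp_eq_exp_ℝ] at h
      exact h.mul_const _
  exact ge_of_tendsto' hlim fun n => (hP n).integral_nonneg hS

/-- The same with the first order term kept. -/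
theorem integral_exp_mul_ge (hS : IsPos S) {W g : Tor ι → ℝ} (hW : InCone S W)
    (hg : InCone S g) :
    ∫ x, g x ∂(μT ι) + ∫ x, W x * g x ∂(μT ι) ≤ ∫ x, Real.exp (W x) * g x ∂(μT ι) := by
  have hWc := hW.continuous hS
  have hgc := hg.continuous hS
  let P : ℕ → Tor ι → ℝ := fun n x => (∑ k ∈ Finset.range n, W x ^ k / k.factorial) * g x
  have hterm : ∀ k : ℕ, InCone S (fun x => W x ^ k / k.factorial * g x) := by
    intro k
    have h2 := InCone.smul ((k.factorial : ℝ)⁻¹) (by positivity) ((hW.pow hS k).mul hS hg)
    convert h2 using 1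
    funext x
    simp [div_eq_inv_mul, mul_assoc]
  have hcont : ∀ n, Continuous (P n) := fun n => by
    show Continuous fun x => (∑ k ∈ Finset.range n, W x ^ k / k.factorial) * g x
    fun_prop
  have hge : ∀ n, ∫ x, g x ∂(μT ι) + ∫ x, W x * g x ∂(μT ι) ≤ ∫ x, P (n + 2) x ∂(μT ι) := by
    intro n
    have hsplit : ∀ x, P (n + 2) x = (g x + W x * g x) +
        ∑ k ∈ Finset.range n, W x ^ (k + 2) / (k + 2).factorial * g x := by
      intro x
      show (∑ k ∈ Finset.range (n + 2), W x ^ k / k.factorial) * g x = _
      rw [Finset.sum_range_succ', Finset.sum_range_succ', ← Finset.sum_mul]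
      simp
      ring
    have hrest : InCone S
        (fun x => ∑ k ∈ Finset.range n, W x ^ (k + 2) / (k + 2).factorial * g x) :=
      InCone.sum _ fun k _ => hterm (k + 2)
    simp only [hsplit]
    rw [integral_add (integrable_of_continuous (by fun_prop))
      (integrable_of_continuous (hrest.continuous hS)),
      integral_add (integrable_of_continuous hgc) (integrable_of_continuous (by fun_prop))]
    linarith [hrest.integral_nonneg hS]
  have hlim : Tendsto (fun n => ∫ x, P n x ∂(μT ι)) atTop
      (𝓝 (∫ x, Real.exp (W x) * g x ∂(μT ι))) := by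
    refine tendsto_integral_of_dominated_convergence (fun x => Real.exp |W x| * |g x|)
      (fun n => (hcont n).aestronglyMeasurable)
      (integrable_of_continuous (by fun_prop)) ?_ ?_
    · intro n
      filter_upwards with x
      rw [Real.norm_eq_abs, abs_mul]
      gcongr
      refine (Finset.abs_sum_le_sum_abs _ _).trans ?_
      refine le_trans (le_of_eq ?_) (Real.sum_le_exp_of_nonneg (abs_nonneg (W x)) n)
      refine Finset.sum_congr rfl fun k _ => ?_
      rw [abs_div, abs_pow, Nat.abs_cast]
    · filter_upwards with x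
      have h := (NormedSpace.expSeries_div_hasSum_exp (W x)).tendsto_sum_nat
      rw [← Real.exp_eq_exp_ℝ] at h
      exact h.mul_const _
  exact ge_of_tendsto' (hlim.comp (tendsto_add_atTop_nat 2)) hge

/-! ### The monomial class -/

/-- Products of powers of cosines and sines of the coordinates. -/
def Mono (f : Tor ι → ℝ) : Prop :=
  ∃ m n : ι → ℕ, f = fun x => ∏ i, (cs (x i) ^ m i * sn (x i) ^ n i)

lemma integral_cs_sn_nonneg (m n : ℕ) :
    0 ≤ ∫ x : Ang, cs x ^ m * sn x ^ n ∂AddCircle.haarAddCircle := by
  set I := ∫ x : Ang, cs x ^ m * sn x ^ n ∂AddCircle.haarAddCircle with hI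
  rcases Nat.even_or_odd m with hm | hm
  · rcases Nat.even_or_odd n with hn | hn
    · exact integral_nonneg fun x => mul_nonneg (hm.pow_nonneg _) (hn.pow_nonneg _)
    · have h : I = -I := by
        conv_lhs => rw [hI, ← integral_neg_eq_self]
        rw [hI, ← integral_neg]
        congr 1; funext x
        rw [cs_neg, sn_neg, hn.neg_pow]; ring
      linarith
  · have h : I = -I := by
      rcases Nat.even_or_odd n with hn | hn
      · conv_lhs => rw [hI, ← integral_add_right_eq_self _ ((π : ℝ) : Ang)]
        rw [hI, ← integral_neg]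
        congr 1; funext x
        rw [cs_add_pi, sn_add_pi, hm.neg_pow, hn.neg_pow]; ring
      · conv_lhs => rw [hI, ← integral_neg_eq_self]
        rw [hI, ← integral_neg]
        congr 1; funext x
        rw [cs_neg, sn_neg, hn.neg_pow]; ring
    linarith

theorem isPos_mono : IsPos (Mono (ι := ι)) where
  cont := by
    rintro f ⟨m, n, rfl⟩
    fun_prop
  one := ⟨0, 0, by funext x; simp⟩
  mul := by
    rintro f g ⟨m, n, rfl⟩ ⟨m', n', rfl⟩
    refine ⟨m + m', n + n', ?_⟩
    funext x
    simp only [Pi.mul_apply, Pi.add_apply, ← Finset.prod_mul_distrib]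
    refine Finset.prod_congr rfl fun i _ => ?_
    ring
  nonneg := by
    rintro f ⟨m, n, rfl⟩
    unfold μT
    rw [integral_fintype_prod_eq_prod (fun i x => cs x ^ m i * sn x ^ n i)]
    exact Finset.prod_nonneg fun i _ => integral_cs_sn_nonneg _ _

lemma mono_cs [DecidableEq ι] (i : ι) : Mono (fun x : Tor ι => cs (x i)) := by
  refine ⟨fun j => if j = i then 1 else 0, 0, ?_⟩
  funext x
  simp

lemma mono_sn [DecidableEq ι] (i : ι) : Mono (fun x : Tor ι => sn (x i)) := by
  refine ⟨0, fun j => if j = i then 1 else 0, ?_⟩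
  funext x
  simp

end Vale.Agent.P159.XY
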